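import Vale.Agent.P219.CH.Core.MinTools
import Vale.Agent.P219.CH.Core.Field.Surf
import Mathlib.Analysis.Calculus.BumpFunction.Convolution
import Mathlib.Analysis.Calculus.ContDiff.Convolution

/-!
P219, rigidity: null sets of the volume, the divergence theorem and functions without
derivative.
-/

namespace Vale.Agent.P219.CH.Full.Rigid

open MeasureTheory Filter Topology Set Metric
open scoped ContDiff Convolution

noncomputable section

set_option maxSynthPendingDepth 3

variable {n : ℕ} {G : Coeff n}

theorem ae_vol_iff (hG : IsMetric G) {p : E n → Prop} :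
    (∀ᵐ x ∂vol G, p x) ↔ ∀ᵐ x : E n, p x := by
  have h1 : vol G ≪ volume := withDensity_absolutelyContinuous _ _
  have h2 : (volume : Measure (E n)) ≪ vol G :=
    withDensity_absolutelyContinuous'
      (Core.Mini.continuous_dens hG).measurable.ennreal_ofReal.aemeasurable
      (Eventually.of_forall fun x => (ENNReal.ofReal_pos.2 (hG.dens_pos x)).ne')
  exact ⟨fun h => h2.ae_le h, fun h => h1.ae_le h⟩

theorem vol_eq_zero_iff (hG : IsMetric G) {s : Set (E n)} : vol G s = 0 ↔ volume s = 0 := by
  rw [measure_eq_zero_iff_ae_notMem, measure_eq_zero_iff_ae_notMem, ae_vol_iff hG]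

/-! ### The divergence -/

theorem continuous_divg (hG : IsMetric G) {Z : E n → E n} (hZ : ContDiff ℝ 1 Z) :
    Continuous (divg G Z) :=
  continuous_finsetSum _ fun i _ => (EuclideanSpace.proj (𝕜 := ℝ) i).continuous.comp
    (((hZ.continuous_fderiv one_ne_zero).clm_apply continuous_const).add
      (hG.contDiff_chr.continuous.comp
        (continuous_id.prodMk (continuous_const.prodMk hZ.continuous))))

theorem divg_congr {Z Z' : E n → E n} {x : E n} (h : Z =ᶠ[𝓝 x] Z') :
    divg G Z x = divg G Z' x := by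
  simp only [divg, covd, h.fderiv_eq, h.eq_of_nhds]

theorem divg_of_notMem {Z : E n → E n} {x : E n} (h : x ∉ tsupport Z) : divg G Z x = 0 := by
  simp [divg, covd, fderiv_of_notMem_tsupport (𝕜 := ℝ) h, image_eq_zero_of_notMem_tsupport h,
    chr_zero_right]

theorem integrable_divg (hG : IsMetric G) {Z : E n → E n} (hZ : ContDiff ℝ 1 Z)
    (hs : HasCompactSupport Z) : Integrable (divg G Z) (vol G) :=
  Core.Mini.integrable_of_supp hG (continuous_divg hG hZ)
    (HasCompactSupport.intro hs fun _ hx => divg_of_notMem hx)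

/-- The integral of a divergence vanishes. -/
theorem integral_divg_eq_zero (hG : IsMetric G) {Z : E n → E n} (hZ : ContDiff ℝ 1 Z)
    (hs : HasCompactSupport Z) : ∫ x, divg G Z x ∂vol G = 0 := by
  obtain ⟨R, hR⟩ := hs.isCompact.isBounded.subset_closedBall (0 : E n)
  let b : ContDiffBump (0 : E n) := ⟨|R| + 1, |R| + 2, by positivity, by linarith⟩
  have hone : ∀ x ∈ tsupport Z, b =ᶠ[𝓝 x] fun _ => (1 : ℝ) := fun x hx => by
    refine b.eventuallyEq_one_of_mem_ball ?_
    have h := mem_closedBall_zero_iff.1 (hR hx)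
    rw [mem_ball_zero_iff]
    show ‖x‖ < |R| + 1
    linarith [le_abs_self R]
  have h := Core.Field.integral_mul_divg hG (f := b) b.contDiff b.hasCompactSupport hZ
  have e1 : ∀ x, (b : E n → ℝ) x * divg G Z x = divg G Z x := fun x => by
    by_cases hx : x ∈ tsupport Z
    · rw [(hone x hx).eq_of_nhds, one_mul]
    · rw [divg_of_notMem hx, mul_zero]
  have e2 : ∀ x, G x (Z x) (normal G b x) = 0 := fun x => by
    by_cases hx : x ∈ tsupport Z
    · have hz : fderiv ℝ (b : E n → ℝ) x = 0 := by rw [(hone x hx).fderiv_eq]; simp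
      simp [normal, grad, hz]
    · simp [image_eq_zero_of_notMem_tsupport hx]
  simpa [e1, e2] using h

/-- The field whose divergence is a directional derivative. -/
theorem exists_field (hG : IsMetric G) {ψ : E n → ℝ} (hψ : ContDiff ℝ 1 ψ)
    (hs : HasCompactSupport ψ) (w : E n) :
    ∃ Z : E n → E n, ContDiff ℝ 1 Z ∧ HasCompactSupport Z ∧ tsupport Z ⊆ tsupport ψ ∧
      ∀ x, dens G x * divg G Z x = fderiv ℝ ψ x w := by
  set Z : E n → E n := fun x => (ψ x / dens G x) • w
  have hZ : ContDiff ℝ 1 Z :=
    (hψ.div (Core.Field.contDiff_dens_one hG) fun x => (hG.dens_pos x).ne').smul contDiff_const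
  have hsub : tsupport Z ⊆ tsupport ψ :=
    closure_mono fun x hx h0 => hx (by simp [Z, h0])
  refine ⟨Z, hZ, hs.of_isClosed_subset (isClosed_tsupport _) hsub, hsub, fun x => ?_⟩
  rw [Core.Field.dens_mul_divg hG hZ]
  have e : ∀ i, (fun z => dens G z * Z z i) = fun z => w i * ψ z := fun i => funext fun z => by
    have := (hG.dens_pos z).ne'
    simp only [Z, PiLp.smul_apply, smul_eq_mul]
    field_simp
  simp only [e, fderiv_const_mul (hψ.differentiable one_ne_zero x), smul_apply, smul_eq_mul]
  conv_rhs => rw [← sum_coord_smul w]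
  simp

/-! ### Functions without derivative on an open set -/

variable {g : E n → ℝ} {U : Set (E n)}

/-- Near a point of the open set the function is almost everywhere constant. -/
theorem ae_const_ball (hg : LocallyIntegrable g)
    (h : ∀ ψ : E n → ℝ, ContDiff ℝ 1 ψ → HasCompactSupport ψ → tsupport ψ ⊆ U →
      ∀ w, ∫ x, g x * fderiv ℝ ψ x w = 0)
    {x₀ : E n} {r : ℝ} (hr : 0 < r) (hU : closedBall x₀ (3 * r) ⊆ U) :
    ∃ c : ℝ, ∀ᵐ x ∂volume.restrict (ball x₀ r), g x = c := by
  let φ : ℕ → ContDiffBump (0 : E n) := fun j =>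
    ⟨r / (2 * ((j : ℝ) + 1)), r / ((j : ℝ) + 1), by positivity, by
      rw [← div_div, div_right_comm]; exact half_lt_self (by positivity)⟩
  have hout : Tendsto (fun j => (φ j).rOut) atTop (𝓝 0) := by
    have h1 := tendsto_one_div_add_atTop_nhds_zero_nat (𝕜 := ℝ)
    have h2 := h1.const_mul r
    simpa [φ, div_eq_mul_inv] using h2
  have hK : ∀ᶠ j in atTop, (φ j).rOut ≤ 2 * (φ j).rIn := Eventually.of_forall fun j => by
    have hj : (0 : ℝ) < (j : ℝ) + 1 := by positivity
    show r / ((j : ℝ) + 1) ≤ 2 * (r / (2 * ((j : ℝ) + 1)))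
    rw [← div_div, div_right_comm]
    linarith
  set u : ℕ → E n → ℝ := fun j =>
    (φ j).normed volume ⋆[ContinuousLinearMap.lsmul ℝ ℝ, volume] g with hu
  have hconst : ∀ j, ∀ x ∈ ball x₀ r, u j x = u j x₀ := by
    intro j x hx
    have hd : ∀ y, HasFDerivAt (u j)
        ((fderiv ℝ ((φ j).normed volume)
          ⋆[(ContinuousLinearMap.lsmul ℝ ℝ).precompL (E n), volume] g) y) y := fun y =>
      (φ j).hasCompactSupport_normed.hasFDerivAt_convolution_left _ (φ j).contDiff_normed hg y
    refine isOpen_ball.is_const_of_fderiv_eq_zero (convex_ball x₀ r).isPreconnected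
      (fun y _ => (hd y).differentiableAt.differentiableWithinAt) (fun y hy => ?_) hx
      (mem_ball_self hr)
    rw [(hd y).fderiv, Pi.zero_apply]
    ext w
    have hint : Integrable (fun t =>
        (ContinuousLinearMap.lsmul ℝ ℝ).precompL (E n) (fderiv ℝ ((φ j).normed volume) t)
          (g (y - t))) volume :=
      ((φ j).hasCompactSupport_normed.fderiv ℝ).convolutionExists_left _
        ((φ j).contDiff_normed.continuous_fderiv one_ne_zero) hg y
    rw [convolution_def, ContinuousLinearMap.integral_apply hint, zero_apply]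
    simp only [ContinuousLinearMap.precompL_apply, ContinuousLinearMap.lsmul_apply, smul_eq_mul]
    rw [← integral_sub_left_eq_self _ volume y]
    simp only [sub_sub_cancel]
    set ψ : E n → ℝ := fun t => (φ j).normed volume (y - t)
    have hψ : ContDiff ℝ 1 ψ := (φ j).contDiff_normed.comp (contDiff_const.sub contDiff_id)
    have hψsupp : tsupport ψ ⊆ closedBall y r := by
      refine closure_minimal (fun t ht => ?_) isClosed_closedBall
      have h1 : y - t ∈ Function.support ((φ j).normed volume) := ht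
      rw [(φ j).support_normed_eq, mem_ball_zero_iff] at h1
      rw [mem_closedBall, dist_eq_norm, norm_sub_rev]
      exact h1.le.trans (div_le_self hr.le (by linarith [j.cast_nonneg (α := ℝ)]))
    have hψc : HasCompactSupport ψ :=
      (isCompact_closedBall y r).of_isClosed_subset (isClosed_tsupport _) hψsupp
    have hψU : tsupport ψ ⊆ U := hψsupp.trans fun t ht => hU <| by
      rw [mem_closedBall] at ht ⊢
      linarith [dist_triangle t y x₀, mem_ball.1 hy]
    have h0 := h ψ hψ hψc hψU w
    have e : ∀ t, fderiv ℝ ψ t w = -fderiv ℝ ((φ j).normed volume) (y - t) w := fun t => by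
      have h2 : HasFDerivAt (fun s : E n => y - s) (-ContinuousLinearMap.id ℝ (E n)) t :=
        (hasFDerivAt_id t).const_sub y
      have h1 : HasFDerivAt ψ ((fderiv ℝ ((φ j).normed volume) (y - t)).comp
          (-ContinuousLinearMap.id ℝ (E n))) t :=
        (((φ j).contDiff_normed (n := 1)).differentiable one_ne_zero (y - t)).hasFDerivAt.comp t h2
      rw [h1.fderiv]
      simp
    simp only [e, mul_neg, integral_neg, neg_eq_zero] at h0
    rw [← h0]
    exact integral_congr_ae (Eventually.of_forall fun t => mul_comm _ _)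
  have hae : ∀ᵐ x, Tendsto (fun j => u j x) atTop (𝓝 (g x)) :=
    ContDiffBump.ae_convolution_tendsto_right_of_locallyIntegrable hout hK hg
  have hae' := ae_restrict_of_ae (s := ball x₀ r) hae
  have : NeBot (ae (volume.restrict (ball x₀ r))) :=
    ae_neBot.2 (Measure.restrict_eq_zero.not.2 (measure_ball_pos volume x₀ hr).ne')
  obtain ⟨x₁, hx₁, hx₁'⟩ := ((ae_restrict_mem measurableSet_ball).and hae').exists
  refine ⟨g x₁, ?_⟩
  filter_upwards [ae_restrict_mem measurableSet_ball, hae'] with x hx hx'
  refine tendsto_nhds_unique hx' (hx₁'.congr fun j => ?_)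
  rw [hconst j x₁ hx₁, hconst j x hx]

/-- On an open connected set the function is almost everywhere constant. -/
theorem exists_ae_const (hg : LocallyIntegrable g) (hUo : IsOpen U) (hUc : IsPreconnected U)
    (h : ∀ ψ : E n → ℝ, ContDiff ℝ 1 ψ → HasCompactSupport ψ → tsupport ψ ⊆ U →
      ∀ w, ∫ x, g x * fderiv ℝ ψ x w = 0) :
    ∃ c : ℝ, ∀ᵐ x ∂volume.restrict U, g x = c := by
  have hloc : ∀ x ∈ U, ∃ r : ℝ, 0 < r ∧ ball x r ⊆ U ∧
      ∃ c : ℝ, ∀ᵐ y ∂volume.restrict (ball x r), g y = c := by
    intro x hx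
    obtain ⟨ε, hε, hεU⟩ := nhds_basis_closedBall.mem_iff.1 (hUo.mem_nhds hx)
    exact ⟨ε / 3, by positivity,
      (ball_subset_closedBall.trans (closedBall_subset_closedBall (by linarith))).trans hεU,
      ae_const_ball hg h (by positivity)
        (by rw [mul_div_cancel₀ ε three_ne_zero]; exact hεU)⟩
  choose! r hr hrU c hc using hloc
  have huniq : ∀ x ∈ U, ∀ y ∈ ball x (r x), c y = c x := by
    intro x hx y hy
    have hyU := hrU x hx hy
    have hpos : volume (ball x (r x) ∩ ball y (r y)) ≠ 0 :=
      ((isOpen_ball.inter isOpen_ball).measure_pos volume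
        ⟨y, hy, mem_ball_self (hr y hyU)⟩).ne'
    have : NeBot (ae (volume.restrict (ball x (r x) ∩ ball y (r y)))) :=
      ae_neBot.2 (Measure.restrict_eq_zero.not.2 hpos)
    have h1 := ae_restrict_of_ae_restrict_of_subset
      (inter_subset_left (s := ball x (r x)) (t := ball y (r y))) (hc x hx)
    have h2 := ae_restrict_of_ae_restrict_of_subset
      (inter_subset_right (s := ball x (r x)) (t := ball y (r y))) (hc y hyU)
    obtain ⟨t, ht1, ht2⟩ :=
      (h1.and h2).exists
    exact ht2.symm.trans ht1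
  have hd : ∀ x ∈ U, HasFDerivAt c (0 : E n →L[ℝ] ℝ) x := fun x hx => by
    refine (hasFDerivAt_const (c x) x).congr_of_eventuallyEq ?_
    filter_upwards [ball_mem_nhds x (hr x hx)] with y hy using huniq x hx y hy
  obtain ⟨a, ha⟩ := hUo.exists_is_const_of_fderiv_eq_zero hUc
    (fun x hx => (hd x hx).differentiableAt.differentiableWithinAt) (fun x hx => (hd x hx).fderiv)
  refine ⟨a, ?_⟩
  rw [ae_restrict_iff' hUo.measurableSet, ae_iff]
  refine measure_null_of_locally_null _ fun x hx => ?_
  have hxU : x ∈ U := (Classical.not_imp.1 hx).1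
  refine ⟨{y | ¬(y ∈ U → g y = a)} ∩ ball x (r x),
    inter_mem self_mem_nhdsWithin (mem_nhdsWithin_of_mem_nhds (ball_mem_nhds x (hr x hxU))), ?_⟩
  refine measure_mono_null ?_ (ae_iff.1 ((ae_restrict_iff' measurableSet_ball).1 (hc x hxU)))
  rintro y ⟨hy, hyb⟩ hcy
  exact hy fun _ => (hcy hyb).trans (ha x hxU)

end

end Vale.Agent.P219.CH.Full.Rigid
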