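import Vale.Agent.P219.CH.Full.Rigid.Model
import Vale.Agent.P219.CH.Geo.Basic
import Mathlib.Analysis.InnerProductSpace.Calculus

/-!
P219, rigidity: in normal coordinates a metric with curvature at most `-e` is at least the metric
of the space form.
-/

namespace Vale.Agent.P219.CH.Full.Rigid

open Filter Topology Asymptotics
open scoped ContDiff RealInnerProductSpace

noncomputable section

variable {n : ℕ} {G : Coeff n} (Γ : Geo G)

/-- Normal coordinates. -/
def expL (z : E n) (L : E n ≃L[ℝ] E n) (v : E n) : E n := (Γ.flow 1 (z, L v)).1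

theorem contDiff_expL (z : E n) (L : E n ≃L[ℝ] E n) : ContDiff ℝ 1 (expL Γ z L) :=
  contDiff_fst.comp (Γ.flow_c1.comp (contDiff_const.prodMk (contDiff_const.prodMk L.contDiff)))

theorem logm_expL (z : E n) (L : E n ≃L[ℝ] E n) (v : E n) :
    Γ.logm z (expL Γ z L v) = L v := Γ.logm_exp z (L v)

theorem expL_logm (z : E n) (L : E n ≃L[ℝ] E n) (y : E n) :
    expL Γ z L (L.symm (Γ.logm z y)) = y := by
  rw [expL, L.apply_symm_apply, Γ.exp_logm]

/-- Normal coordinates are a homeomorphism. -/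
def expH (z : E n) (L : E n ≃L[ℝ] E n) : E n ≃ₜ E n where
  toFun := expL Γ z L
  invFun y := L.symm (Γ.logm z y)
  left_inv v := by simp [logm_expL]
  right_inv := expL_logm Γ z L
  continuous_toFun := (contDiff_expL Γ z L).continuous
  continuous_invFun := L.symm.continuous.comp
    (Γ.logm_c1.continuous.comp (continuous_const.prodMk continuous_id))

theorem expH_coe (z : E n) (L : E n ≃L[ℝ] E n) : ⇑(expH Γ z L) = expL Γ z L := rfl

theorem injective_expL (z : E n) (L : E n ≃L[ℝ] E n) : Function.Injective (expL Γ z L) :=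
  (expH Γ z L).injective

variable {z : E n} {L : E n ≃L[ℝ] E n} (hL : ∀ u v, G z (L u) (L v) = ⟪u, v⟫)
include hL

theorem sqd_expL (v : E n) : sqd Γ z (expL Γ z L v) = ‖v‖ ^ 2 := by
  rw [sqd, logm_expL, hL, real_inner_self_eq_norm_sq]

theorem phi_expL (e : ℝ) (v : E n) : phi Γ e z (expL Γ z L v) = phiR e (‖v‖ ^ 2) := by
  rw [phi, sqd_expL Γ hL]

theorem xi_expL (e : ℝ) (v : E n) :
    xi Γ e z (expL Γ z L v) = L (sd (e * ‖v‖ ^ 2) • v) := by
  rw [xi, sqd_expL Γ hL, logm_expL, map_smul]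

/-- The lemma of Gauss. -/
theorem gauss_expL (v a : E n) :
    G (expL Γ z L v) (Γ.V z (expL Γ z L v)) (fderiv ℝ (expL Γ z L) v a) = ⟪v, a⟫ := by
  have hl : ContDiff ℝ 1 (Γ.logm z) := Γ.logm_c1.comp (contDiff_const.prodMk contDiff_id)
  have hs : ContDiff ℝ 1 (sqd Γ z) := ((G z).contDiff.comp hl).clm_apply hl
  have hc := (hs.differentiable one_ne_zero (expL Γ z L v)).hasFDerivAt.comp v
    ((contDiff_expL Γ z L).differentiable one_ne_zero v).hasFDerivAt
  rw [show sqd Γ z ∘ expL Γ z L = fun v => ‖v‖ ^ 2 from funext fun u => sqd_expL Γ hL u] at hc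
  have h := congrArg (fun T : E n →L[ℝ] ℝ => T a)
    (hc.unique (hasStrictFDerivAt_norm_sq v).hasFDerivAt)
  have hg := Γ.grad_dist z (expL Γ z L v) (fderiv ℝ (expL Γ z L) v a)
  simp only [ContinuousLinearMap.comp_apply, smul_apply, innerSL_apply_apply, nsmul_eq_mul] at h
  rw [show (fun y => G z (Γ.logm z y) (Γ.logm z y)) = sqd Γ z from rfl, h] at hg
  rw [Geo.V]
  push_cast at hg
  linarith

/-- In normal coordinates the metric is at least that of the space form. -/
theorem modelSq_le {e : ℝ} (he : 0 ≤ e) (C : Comp Γ e) (v a : E n) :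
    modelSq e v a ≤ G (expL Γ z L v) (fderiv ℝ (expL Γ z L) v a)
      (fderiv ℝ (expL Γ z L) v a) := by
  set Φ := expL Γ z L with hΦdef
  set y := Φ v with hy
  set w := fderiv ℝ Φ v a with hw
  set s : E n → ℝ := fun u => sd (e * ‖u‖ ^ 2) with hs
  set φ := phi Γ e z y with hφ
  have hΦd : HasFDerivAt Φ (fderiv ℝ Φ v) v :=
    ((contDiff_expL Γ z L).differentiable one_ne_zero v).hasFDerivAt
  have hphi : ContDiff ℝ 1 (phi Γ e z) := C.phi_c1.comp (contDiff_const.prodMk contDiff_id)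
  have hxi : ContDiff ℝ 1 (xi Γ e z) := C.xi_c1.comp (contDiff_const.prodMk contDiff_id)
  -- the derivative of `φ`
  have hdphi : fderiv ℝ (phi Γ e z) y w = s v * ⟪v, a⟫ := by
    rw [C.fderiv_right, gradPhi, sqd_expL Γ hL]
    simp only [map_smul, smul_apply, smul_eq_mul]
    rw [gauss_expL Γ hL]
  -- the derivative of `ξ` in coordinates
  set Y : E n → E n := fun u => s u • u with hYdef
  have hY : Y = fun u => (L.symm : E n →L[ℝ] E n) (xi Γ e z (Φ u)) := funext fun u => by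
    simp [hYdef, hs, hΦdef, xi_expL Γ hL]
  set X := L.symm (fderiv ℝ (xi Γ e z) y w) with hX
  have hYd : ∃ D : E n →L[ℝ] E n, HasFDerivAt Y D v ∧ D a = X := by
    refine ⟨(L.symm : E n →L[ℝ] E n).comp ((fderiv ℝ (xi Γ e z) y).comp (fderiv ℝ Φ v)),
      ?_, rfl⟩
    rw [hY]
    exact (L.symm : E n →L[ℝ] E n).hasFDerivAt.comp v
      ((show HasFDerivAt (xi Γ e z) (fderiv ℝ (xi Γ e z) y) (Φ v) from
        (hxi.differentiable one_ne_zero y).hasFDerivAt).comp v hΦd)
  obtain ⟨D, hD, hDa⟩ := hYd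
  -- the component orthogonal to `v`
  set T : E n →L[ℝ] E n := ContinuousLinearMap.id ℝ (E n) -
    ((‖v‖ ^ 2)⁻¹ • innerSL ℝ v).smulRight v with hT
  have hTu : ∀ u, T u = u - ((‖v‖ ^ 2)⁻¹ * ⟪v, u⟫) • v := fun u => by simp [hT]
  have hTv : T v = 0 := by
    rcases eq_or_ne v 0 with h | h
    · simp [h]
    · rw [hTu, real_inner_self_eq_norm_sq, inv_mul_cancel₀ (by positivity), one_smul, sub_self]
  have hsc : ContinuousAt s v :=
    (continuous_sd.comp (continuous_const.mul (continuous_norm.pow 2))).continuousAt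
  have h1 : HasFDerivAt (fun u => s u • T u) (s v • T) v := by
    refine .of_isLittleO ?_
    have e1 : ∀ u, s u • T u - s v • T v - (s v • T) (u - v) = (s u - s v) • T (u - v) :=
      fun u => by simp only [smul_apply, map_sub, hTv, smul_zero, sub_zero, sub_smul]
    simp only [e1]
    have ho : (fun u => s u - s v) =o[𝓝 v] fun _ => (1 : ℝ) :=
      (isLittleO_one_iff ℝ).2 (tendsto_sub_nhds_zero_iff.2 hsc)
    have hO : (fun u => T (u - v)) =O[𝓝 v] fun u => u - v := T.isBigO_comp _ _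
    simpa using ho.smul_isBigO hO
  have hTX : T X = s v • T a := by
    have h2 : HasFDerivAt (fun u => s u • T u) (T.comp D) v := by
      refine (T.hasFDerivAt.comp v hD).congr_of_eventuallyEq (Eventually.of_forall fun u => ?_)
      simp [hYdef]
    rw [← hDa]
    exact congrArg (fun M : E n →L[ℝ] E n => M a) (h2.unique h1)
  have hnT : ∀ u, ‖T u‖ ^ 2 = ‖u‖ ^ 2 - ⟪v, u⟫ ^ 2 / ‖v‖ ^ 2 := fun u => by
    rw [hTu, norm_sub_sq_real, real_inner_smul_right, real_inner_comm v u, norm_smul, mul_pow,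
      Real.norm_eq_abs, sq_abs]
    rcases eq_or_ne v 0 with h | h
    · simp [h]
    · have hv : ‖v‖ ≠ 0 := norm_ne_zero_iff.2 h
      field_simp
      ring
  -- the radial component
  have hrad : ⟪v, X⟫ = (1 + e * φ) * ⟪v, a⟫ := by
    have hsv : 0 < s v := sd_pos (mul_nonneg he (sq_nonneg _))
    have hQ : ∀ u, ‖Y u‖ ^ 2 = 2 * phi Γ e z (Φ u) + e * phi Γ e z (Φ u) ^ 2 := fun u => by
      have h := C.xi_sq z (Φ u)
      rwa [xi_expL Γ hL, hL, real_inner_self_eq_norm_sq] at h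
    have hdl := hD.norm_sq
    have hp := (hphi.differentiable one_ne_zero y).hasFDerivAt.comp v hΦd
    have hdr := (hp.const_mul 2).add ((hp.pow 2).const_mul e)
    have h := congrArg (fun M : E n →L[ℝ] ℝ => M a)
      (hdl.unique (hdr.congr_of_eventuallyEq (Eventually.of_forall fun u => hQ u)))
    simp only [add_apply, smul_apply, ContinuousLinearMap.comp_apply, innerSL_apply_apply, hDa,
      smul_eq_mul, nsmul_eq_mul, ← hw, hdphi, hYdef, real_inner_smul_left, Function.comp_apply,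
      ← hy, ← hφ] at h
    push_cast at h
    exact mul_left_cancel₀ hsv.ne' (by linarith)
  have hra : G z (fderiv ℝ (xi Γ e z) y w) (fderiv ℝ (xi Γ e z) y w) = ‖X‖ ^ 2 := by
    rw [← real_inner_self_eq_norm_sq, ← hL, hX, L.apply_symm_apply]
  have hsq : s v ^ 2 * ‖v‖ ^ 2 = 2 * φ + e * φ ^ 2 := by
    have h := C.xi_sq z y
    rw [hy, hΦdef, xi_expL Γ hL, hL, real_inner_self_eq_norm_sq, norm_smul, mul_pow,
      Real.norm_eq_abs, sq_abs] at h
    exact h
  have h := C.rauch z y w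
  rw [hra, hdphi] at h
  refine le_trans ?_ h
  have hXn := hnT X
  rw [hTX, norm_smul, mul_pow, Real.norm_eq_abs, sq_abs, hnT, hrad] at hXn
  change s v ^ 2 * ‖a‖ ^ 2 + (1 - s v ^ 2) * (⟪v, a⟫ ^ 2 / ‖v‖ ^ 2) ≤ _
  rcases eq_or_ne v 0 with hv | hv
  · simp only [hv, inner_zero_left, norm_zero] at hXn ⊢
    norm_num at hXn ⊢
    linarith
  · have hv' : ‖v‖ ^ 2 ≠ 0 := pow_ne_zero _ (norm_ne_zero_iff.2 hv)
    have h5 : (1 + e * φ) ^ 2 = 1 + e * (s v ^ 2 * ‖v‖ ^ 2) := by rw [hsq]; ring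
    rw [mul_pow, h5] at hXn
    field_simp at hXn ⊢
    nlinarith

end

end Vale.Agent.P219.CH.Full.Rigid
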