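import Vale.Agent.P219.CH.Full.Rigid.Matrix
import Vale.Agent.P219.CH.Full.Rigid.Pullback
import Vale.Agent.P219.CH.Full.Rigid.Const
import Mathlib.MeasureTheory.Function.Jacobian
import Mathlib.MeasureTheory.Constructions.HaarToSphere

/-!
P219, rigidity: a normal ball with the volume of the space form is isometric to it.
-/

namespace Vale.Agent.P219.CH.Full.Rigid

open MeasureTheory Filter Topology Set Metric Matrix
open scoped ContDiff RealInnerProductSpace

noncomputable section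

variable {n : ℕ} {G : Coeff n}

/-- The volume of a ball of the space form as an integral over a Euclidean ball. -/
theorem integral_ball_sd (hn : 0 < n) (e : ℝ) {R : ℝ} (hR : 0 ≤ R) :
    ∫ v in ball (0 : E n) R, sd (e * ‖v‖ ^ 2) ^ (n - 1) = volM n e R := by
  have : Nontrivial (E n) := Module.nontrivial_of_finrank_pos (R := ℝ)
    (by rw [finrank_euclideanSpace_fin]; exact hn)
  set g : ℝ → ℝ := fun y => sd (e * y ^ 2) ^ (n - 1)
  have h1 : ∫ v in ball (0 : E n) R, g ‖v‖ = ∫ v : E n, (Iio R).indicator g ‖v‖ := by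
    rw [← integral_indicator measurableSet_ball]
    refine integral_congr_ae (Eventually.of_forall fun v => ?_)
    by_cases h : ‖v‖ < R <;> simp [h]
  have h2 : ∫ y in Ioi (0 : ℝ), y ^ (n - 1) • (Iio R).indicator g y =
      ∫ y in (0 : ℝ)..R, y ^ (n - 1) * g y := by
    rw [intervalIntegral.integral_of_le hR, integral_Ioc_eq_integral_Ioo, ← Ioi_inter_Iio,
      ← setIntegral_indicator measurableSet_Iio]
    refine setIntegral_congr_fun measurableSet_Ioi fun y _ => ?_
    by_cases h : y ∈ Iio R <;> simp [h]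
  change ∫ v in ball (0 : E n) R, g ‖v‖ = _
  rw [h1, integral_fun_norm_addHaar, finrank_euclideanSpace_fin, h2, volM]
  simp only [areaM, sn, mul_pow, intervalIntegral.integral_const_mul, nsmul_eq_mul, smul_eq_mul,
    omega, measureReal_def, g]
  ring

variable {Γ : Geo G} {e : ℝ} {z : E n} {L : E n ≃L[ℝ] E n}
  (hL : ∀ u v, G z (L u) (L v) = ⟪u, v⟫)
include hL

/-- Normal balls of the volume of the space form are isometric to balls of the space form. -/
theorem pullback_eq (hn : 0 < n) (hG : IsMetric G) (he : 0 ≤ e) (C : Comp Γ e) {R : ℝ}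
    (hR : 0 ≤ R) (hvol : (vol G (expL Γ z L '' ball 0 R)).toReal ≤ volM n e R)
    (v : E n) (hv : v ∈ ball (0 : E n) R) (a : E n) :
    G (expL Γ z L v) (fderiv ℝ (expL Γ z L) v a) (fderiv ℝ (expL Γ z L) v a) =
      modelSq e v a := by
  set Φ := expL Γ z L with hΦ
  set bs := (EuclideanSpace.basisFun (Fin n) ℝ).toBasis
  set M : E n → Matrix (Fin n) (Fin n) ℝ := fun v =>
    LinearMap.toMatrix bs bs (fderiv ℝ Φ v).toLinearMap
  have hM : ∀ (v w : E n), M v *ᵥ ⇑w = ⇑(fderiv ℝ Φ v w) := fun v w =>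
    LinearMap.toMatrix_mulVec_repr bs bs (fderiv ℝ Φ v).toLinearMap w
  set Q : E n → Matrix (Fin n) (Fin n) ℝ := fun v => (M v)ᵀ * gmat G (Φ v) * M v
  have hQ : ∀ (v w : E n), (⇑w) ⬝ᵥ (Q v *ᵥ ⇑w) =
      G (Φ v) (fderiv ℝ Φ v w) (fderiv ℝ Φ v w) := fun v w => by
    rw [metric_eq_gmat, ← hM, ← mulVec_mulVec, ← mulVec_mulVec, dotProduct_mulVec (⇑w),
      vecMul_transpose]
  have hQh : ∀ v, (Q v).IsHermitian := fun v => by
    simpa [Q, conjTranspose_eq_transpose_of_trivial] using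
      Matrix.isHermitian_conjTranspose_mul_mul (M v) (gmat_posDef hG (Φ v)).1
  have hle : ∀ v, ∀ x : Fin n → ℝ, x ⬝ᵥ (modelMat e v *ᵥ x) ≤ x ⬝ᵥ (Q v *ᵥ x) := fun v x => by
    have h := modelSq_le Γ hL he C v (WithLp.toLp 2 x)
    rwa [modelSq_eq, ← hQ] at h
  have hs : ∀ v : E n, 0 < sd (e * ‖v‖ ^ 2) := fun v => sd_pos (mul_nonneg he (sq_nonneg _))
  have hPpos : ∀ v, (modelMat e v).PosDef := fun v => by
    refine Matrix.posDef_iff_dotProduct_mulVec.mpr ⟨isHermitian_modelMat e v, fun x hx => ?_⟩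
    have h : 0 < modelSq e v (WithLp.toLp 2 x) := by
      have hx0 : (WithLp.toLp 2 x : E n) ≠ 0 := by simpa using hx
      have hcs : ⟪v, WithLp.toLp 2 x⟫ ^ 2 / ‖v‖ ^ 2 ≤ ‖(WithLp.toLp 2 x : E n)‖ ^ 2 := by
        refine div_le_of_le_mul₀ (sq_nonneg _) (sq_nonneg _) ?_
        rw [← sq_abs, ← mul_pow, mul_comm]
        exact pow_le_pow_left₀ (abs_nonneg _) (abs_real_inner_le_norm _ _) 2
      have h0 : (0 : ℝ) ≤ ⟪v, WithLp.toLp 2 x⟫ ^ 2 / ‖v‖ ^ 2 := by positivity
      have hxn : 0 < ‖(WithLp.toLp 2 x : E n)‖ ^ 2 := by positivity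
      rw [modelSq]
      rcases h0.eq_or_lt with h1 | h1
      · rw [← h1]; simp only [mul_zero, add_zero]
        exact mul_pos (pow_pos (hs v) 2) hxn
      · nlinarith [mul_nonneg (sq_nonneg (sd (e * ‖v‖ ^ 2))) (sub_nonneg.2 hcs)]
    rw [modelSq_eq] at h
    simpa using h
  set f₁ : E n → ℝ := fun v => |(fderiv ℝ Φ v).det| * dens G (Φ v) with hf₁
  set f₂ : E n → ℝ := fun v => sd (e * ‖v‖ ^ 2) ^ (n - 1) with hf₂
  have hdetQ : ∀ v, (Q v).det = f₁ v ^ 2 := fun v => by
    simp only [Q, f₁, M, det_mul, det_transpose, LinearMap.det_toMatrix, mul_pow, sq_abs, dens_eq,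
      Real.sq_sqrt (gmat_posDef hG (Φ v)).det_pos.le]
    ring
  have hdetP : ∀ v, (modelMat e v).det = f₂ v ^ 2 := fun v => det_modelMat e hn v (hs v).ne'
  have hf₁0 : ∀ v, 0 ≤ f₁ v := fun v => mul_nonneg (abs_nonneg _) (hG.dens_pos _).le
  have hf₂0 : ∀ v, 0 ≤ f₂ v := fun v => pow_nonneg (hs v).le _
  have hff : ∀ v, f₂ v ≤ f₁ v := fun v => by
    have h := det_le_det_of_forms (hPpos v) (hQh v) (hle v)
    rw [hdetP, hdetQ] at h
    exact (pow_le_pow_iff_left₀ (hf₂0 v) (hf₁0 v) two_ne_zero).1 h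
  have hΦc : ContDiff ℝ 1 Φ := contDiff_expL Γ z L
  have hc₁ : Continuous f₁ :=
    ((ContinuousLinearMap.continuous_det.comp (hΦc.continuous_fderiv one_ne_zero)).abs).mul
      (hG.contDiff_dens.continuous.comp hΦc.continuous)
  have hc₂ : Continuous f₂ :=
    (continuous_sd.comp (continuous_const.mul (continuous_norm.pow 2))).pow _
  have hi₁ : IntegrableOn f₁ (ball (0 : E n) R) :=
    (hc₁.continuousOn.integrableOn_compact (isCompact_closedBall 0 R)).mono_set ball_subset_closedBall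
  have hi₂ : IntegrableOn f₂ (ball (0 : E n) R) :=
    (hc₂.continuousOn.integrableOn_compact (isCompact_closedBall 0 R)).mono_set ball_subset_closedBall
  have hmo : IsOpen (Φ '' ball 0 R) := (expH Γ z L).isOpenMap _ isOpen_ball
  have hV : vol G (Φ '' ball 0 R) = ENNReal.ofReal (∫ w in ball (0 : E n) R, f₁ w) := by
    rw [vol, withDensity_apply _ hmo.measurableSet,
      lintegral_image_eq_lintegral_abs_det_fderiv_mul volume measurableSet_ball
        (fun w _ => (hΦc.differentiable one_ne_zero w).hasFDerivAt.hasFDerivWithinAt)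
        (injective_expL Γ z L).injOn,
      ofReal_integral_eq_lintegral_ofReal hi₁ (Eventually.of_forall hf₁0)]
    exact lintegral_congr fun w => (ENNReal.ofReal_mul (abs_nonneg _)).symm
  rw [hV, ENNReal.toReal_ofReal (integral_nonneg hf₁0), ← integral_ball_sd hn e hR] at hvol
  have h0 : ∫ w in ball (0 : E n) R, (f₁ w - f₂ w) = 0 := by
    rw [integral_sub hi₁ hi₂]
    have := setIntegral_mono_on hi₂ hi₁ measurableSet_ball fun w _ => hff w
    linarith
  have hae : (fun w => f₁ w - f₂ w) =ᵐ[volume.restrict (ball (0 : E n) R)] 0 :=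
    (integral_eq_zero_iff_of_nonneg (fun w => sub_nonneg.2 (hff w)) (hi₁.sub hi₂)).1 h0
  have heq := Measure.eqOn_open_of_ae_eq hae isOpen_ball (hc₁.sub hc₂).continuousOn
    continuous_zero.continuousOn hv
  simp only [Pi.zero_apply, sub_eq_zero] at heq
  have hforms := forms_eq_of_det_eq (hPpos v) (hQh v) (hle v)
    (by rw [hdetP, hdetQ, heq]) (⇑a)
  rw [hQ, ← modelSq_eq] at hforms
  exact hforms.symm

end

end Vale.Agent.P219.CH.Full.Rigid
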