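import Vale.Agent.P219.CH.Core.Field.Trace
import Vale.Agent.P219.CH.Core.Field.Point
import Vale.Agent.P219.CH.Full.Tools
import Vale.Agent.P219.CH.Full.Rigid.Pullback
import Vale.Agent.P219.CH.Full.Rigid.Const

/-!
P219, rigidity: the limit measure sits on one distance sphere and the set is the ball inside.
-/

namespace Vale.Agent.P219.CH.Full.Rigid

open MeasureTheory Filter Topology Set Metric
open scoped ContDiff RealInnerProductSpace

noncomputable section

set_option maxSynthPendingDepth 3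

variable {n : ℕ} {G : Coeff n} {Γ : Geo G} {e : ℝ}

/-! ### The field of the comparison function -/

theorem contDiff_phi (C : Comp Γ e) (z : E n) : ContDiff ℝ 1 (phi Γ e z) :=
  C.phi_c1.comp (contDiff_const.prodMk contDiff_id)

theorem contDiff_gradPhi (C : Comp Γ e) (z : E n) : ContDiff ℝ 1 (gradPhi Γ e z) :=
  C.grad_c1.comp (contDiff_const.prodMk contDiff_id)

theorem grad_phi (hG : IsMetric G) (C : Comp Γ e) (z y : E n) :
    grad G (phi Γ e z) y = gradPhi Γ e z y :=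
  hG.ext fun w => by rw [hG.G_grad, C.fderiv_right]

theorem normal_sq_of_tgsq (hG : IsMetric G) (C : Comp Γ e) (z : E n) (p : E n × E n)
    (h : tgsq G (phi Γ e z) p = 0) :
    fderiv ℝ (phi Γ e z) p.1 p.2 ^ 2 = 2 * phi Γ e z p.1 + e * phi Γ e z p.1 ^ 2 := by
  rw [← C.grad_sq]
  simp only [tgsq, tgp, grad_phi hG C, C.fderiv_right] at h ⊢
  linear_combination -h

theorem divg_gradPhi_ge (hG : IsMetric G) (he : 0 ≤ e) (C : Comp Γ e) (z y : E n) :
    (n : ℝ) ≤ divg G (gradPhi Γ e z) y := by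
  have h := Core.Field.le_trace_sub (G y) (hG.symm y) (hG.pos y)
    (Core.Field.covdL G (gradPhi Γ e z) y) (fun w => by
      rw [Core.Field.covdL_apply]
      refine le_trans ?_ (C.hess z y w)
      exact le_mul_of_one_le_left (hG.nonneg y w)
        (le_add_of_nonneg_right (mul_nonneg he (C.phi_nonneg z y))))
    (ν := 0) (Or.inl rfl)
  rw [Core.Field.divg_eq_trace]
  simpa using h

/-- The field `ζ (φ) ∇φ`. -/
def fieldPhi (Γ : Geo G) (e : ℝ) (z : E n) (ζ : ℝ → ℝ) (y : E n) : E n :=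
  ζ (phi Γ e z y) • gradPhi Γ e z y

theorem contDiff_fieldPhi (C : Comp Γ e) (z : E n) {ζ : ℝ → ℝ} (hζ : ContDiff ℝ 1 ζ) :
    ContDiff ℝ 1 (fieldPhi Γ e z ζ) :=
  (hζ.comp (contDiff_phi C z)).smul (contDiff_gradPhi C z)

theorem divg_fieldPhi_eq (C : Comp Γ e) {z y : E n} {ζ : ℝ → ℝ} {c : ℝ}
    (h : ∀ᶠ t in 𝓝 (phi Γ e z y), ζ t = c) :
    divg G (fieldPhi Γ e z ζ) y = divg G (fun x => c • gradPhi Γ e z x) y := by
  refine divg_congr ?_
  filter_upwards [(contDiff_phi C z).continuous.continuousAt.eventually h] with x hx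
  simp [fieldPhi, hx]

theorem divg_fieldPhi_zero (C : Comp Γ e) {z y : E n} {ζ : ℝ → ℝ}
    (h : ∀ᶠ t in 𝓝 (phi Γ e z y), ζ t = 0) : divg G (fieldPhi Γ e z ζ) y = 0 := by
  rw [divg_fieldPhi_eq C h]
  simp [divg, covd, chr_zero_right]

variable {z : E n} {L : E n ≃L[ℝ] E n} (hL : ∀ u v, G z (L u) (L v) = ⟪u, v⟫)
include hL

theorem compactSupport_fieldPhi (he : 0 ≤ e) {ζ : ℝ → ℝ} {M : ℝ} (h : ∀ t, M ≤ t → ζ t = 0) :
    HasCompactSupport (fieldPhi Γ e z ζ) := by
  refine HasCompactSupport.intro ((isCompact_closedBall (0 : E n) (Real.sqrt (2 * M))).image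
    (contDiff_expL Γ z L).continuous) fun y hy => ?_
  obtain ⟨v, rfl⟩ : ∃ v, expL Γ z L v = y := ⟨_, expL_logm Γ z L y⟩
  have hv : Real.sqrt (2 * M) < ‖v‖ := by
    by_contra hle
    exact hy ⟨v, mem_closedBall_zero_iff.2 (not_lt.1 hle), rfl⟩
  have h2 : 2 * M ≤ ‖v‖ ^ 2 := by
    by_contra hlt
    exact hv.not_ge (Real.le_sqrt_of_sq_le (not_le.1 hlt).le)
  have h3 := half_le_phiR he (sq_nonneg ‖v‖)
  simp [fieldPhi, h _ (show M ≤ phi Γ e z (expL Γ z L v) by rw [phi_expL Γ hL]; linarith)]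

/-! ### Regions between distance spheres -/

theorem image_ball_eq (he : 0 ≤ e) {r : ℝ} (hr : 0 ≤ r) :
    expL Γ z L '' ball 0 r = {y | phi Γ e z y < phiR e (r ^ 2)} := by
  ext y
  obtain ⟨v, rfl⟩ : ∃ v, expL Γ z L v = y := ⟨_, expL_logm Γ z L y⟩
  rw [(injective_expL Γ z L).mem_set_image, mem_ofPred_eq, phi_expL Γ hL, mem_ball_zero_iff,
    phiR_lt_iff he (norm_nonneg v) hr]

theorem phi_eq_iff (he : 0 ≤ e) {r : ℝ} (hr : 0 ≤ r) (v : E n) :
    phi Γ e z (expL Γ z L v) = phiR e (r ^ 2) ↔ ‖v‖ = r := by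
  rw [phi_expL Γ hL, (strictMonoOn_phiR he).eq_iff_eq (sq_nonneg ‖v‖) (sq_nonneg r),
    sq_eq_sq₀ (norm_nonneg v) hr]

omit hL in
theorem isPreconnected_shell (hn : 2 ≤ n) {I : Set ℝ} (hI : IsPreconnected I) (hpos : I ⊆ Ioi 0) :
    IsPreconnected {v : E n | ‖v‖ ∈ I} := by
  have hrank : 1 < Module.rank ℝ (E n) :=
    Module.one_lt_rank_of_one_lt_finrank (by rw [finrank_euclideanSpace_fin]; omega)
  have h := (hI.prod (isPreconnected_sphere hrank (0 : E n) 1)).image (fun p : ℝ × E n => p.1 • p.2)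
    continuous_smul.continuousOn
  convert h using 1
  ext v
  constructor
  · intro hv
    have h0 : (0 : ℝ) < ‖v‖ := hpos hv
    exact ⟨(‖v‖, ‖v‖⁻¹ • v), ⟨hv, by simp [norm_smul, inv_mul_cancel₀ h0.ne']⟩,
      by simp [smul_smul, mul_inv_cancel₀ h0.ne']⟩
  · rintro ⟨⟨t, u⟩, ⟨ht, hu⟩, rfl⟩
    show ‖t • u‖ ∈ I
    rw [norm_smul, mem_sphere_zero_iff_norm.1 hu, mul_one,
      Real.norm_of_nonneg (hpos ht : (0 : ℝ) < t).le]
    exact ht

variable {S : Set (E n)} {μ : Measure (E n × E n)} (hG : IsMetric G) (hSm : MeasurableSet S)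
  (hSb : Bornology.IsBounded S)
  (hflux : ∀ Z : E n → E n, ContDiff ℝ 1 Z → HasCompactSupport Z →
    ∫ x in S, divg G Z x ∂vol G = ∫ p, G p.1 (Z p.1) p.2 ∂μ)
include hG hSm hSb hflux

omit hL in
/-- Where the measure does not charge, the set is almost empty or almost everything. -/
theorem ae_mem_or_notMem {U : Set (E n)} (hUo : IsOpen U) (hUc : IsPreconnected U)
    (hμU : ∀ᵐ p ∂μ, p.1 ∉ U) :
    (∀ᵐ x ∂vol G, x ∈ U → x ∈ S) ∨ ∀ᵐ x ∂vol G, x ∈ U → x ∉ S := by
  have hSfin : volume S ≠ ⊤ := hSb.measure_lt_top.ne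
  have hg : LocallyIntegrable (S.indicator fun _ => (1 : ℝ)) :=
    ((integrable_indicator_iff hSm).2 (integrableOn_const hSfin)).locallyIntegrable
  obtain ⟨c, hc⟩ := exists_ae_const hg hUo hUc fun ψ hψ hψs hψU w => by
    obtain ⟨Z, hZ, hZs, hZψ, hdiv⟩ := exists_field hG hψ hψs w
    have h0 : ∫ p, G p.1 (Z p.1) p.2 ∂μ = 0 := by
      refine integral_eq_zero_of_ae ?_
      filter_upwards [hμU] with p hp
      simp [image_eq_zero_of_notMem_tsupport fun h => hp (hψU (hZψ h))]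
    rw [← hflux Z hZ hZs, ← integral_indicator hSm, Core.Field.integral_vol hG] at h0
    rw [← h0]
    refine integral_congr_ae (Eventually.of_forall fun x => ?_)
    by_cases hx : x ∈ S <;> simp [hx, hdiv]
  rw [ae_restrict_iff' hUo.measurableSet] at hc
  simp only [ae_vol_iff hG]
  rcases eq_or_ne c 1 with rfl | hc1
  · left
    filter_upwards [hc] with x hx hxU
    by_contra hS'
    simpa [hS'] using hx hxU
  · right
    filter_upwards [hc] with x hx hxU hS'
    exact hc1 (by simpa [hS'] using (hx hxU).symm)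

omit hSb in
/-- A root which is not on the boundary of the set carries no measure. -/
theorem ae_phi_ne [IsFiniteMeasure μ] (he : 0 ≤ e) (C : Comp Γ e) {k a : ℝ} (hk : 0 < k)
    (ha : 0 < a)
    (hae : ∀ᵐ p ∂μ, G p.1 p.2 p.2 = 1 ∧ k * psi Γ e z a p.1 = fderiv ℝ (phi Γ e z) p.1 p.2)
    {b b' : ℝ} (hbb : b' ≠ b) (hS : ∀ᵐ x ∂vol G, x ∈ S ↔ phi Γ e z x < b) :
    ∀ᵐ p ∂μ, phi Γ e z p.1 ≠ b' := by
  set δ := |b' - b| with hδ
  have hδ0 : 0 < δ := abs_pos.2 (sub_ne_zero.2 hbb)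
  let β : ContDiffBump b' := ⟨δ / 4, δ / 2, by positivity, by linarith⟩
  set ζ : ℝ → ℝ := fun t => β t
  have hzero : ∀ t, δ / 2 < |t - b'| → ∀ᶠ s in 𝓝 t, ζ s = 0 := fun t ht => by
    filter_upwards [(isOpen_lt continuous_const ((continuous_id.sub continuous_const).abs)).mem_nhds
      ht] with s hs
    exact β.zero_of_le_dist (le_of_lt hs)
  have hZs : HasCompactSupport (fieldPhi Γ e z ζ) :=
    compactSupport_fieldPhi hL he (M := b' + δ) fun t ht => by
      refine (hzero t ?_).self_of_nhds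
      rw [abs_of_nonneg (by linarith)]; linarith
  have hZ := contDiff_fieldPhi C z (ζ := ζ) β.contDiff
  have hlhs : ∫ x in S, divg G (fieldPhi Γ e z ζ) x ∂vol G = 0 := by
    rcases lt_or_gt_of_ne hbb with hlt | hlt
    · rw [setIntegral_eq_integral_of_ae_compl_eq_zero, integral_divg_eq_zero hG hZ hZs]
      filter_upwards [hS] with x hx hxS
      have hx' : b ≤ phi Γ e z x := not_lt.1 fun h => hxS (hx.2 h)
      refine divg_fieldPhi_zero C (hzero _ ?_)
      rw [abs_of_nonneg (by linarith)]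
      rw [hδ, abs_of_neg (by linarith)]
      linarith
    · rw [← integral_indicator hSm]
      refine integral_eq_zero_of_ae ?_
      filter_upwards [hS] with x hx
      by_cases hxS : x ∈ S
      · rw [indicator_of_mem hxS]
        refine divg_fieldPhi_zero C (hzero _ ?_)
        have := hx.1 hxS
        rw [abs_of_nonpos (by linarith), hδ, abs_of_pos (by linarith)]
        linarith
      · rw [indicator_of_notMem hxS]; rfl
  have heq : (fun p : E n × E n => G p.1 (fieldPhi Γ e z ζ p.1) p.2) =ᵐ[μ]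
      fun p => ζ (phi Γ e z p.1) * (k * psi Γ e z a p.1) := by
    filter_upwards [hae] with p hp
    simp [fieldPhi, hp.2, C.fderiv_right]
  have hint : Integrable (fun p => ζ (phi Γ e z p.1) * (k * psi Γ e z a p.1)) μ := by
    refine (integrable_bundle hG (hae.mono fun p hp => hp.1) ?_ hZs fun p hp => ?_).congr heq
    · exact (Core.Mini.continuous_apply₂ hG).comp (continuous_fst.prodMk
        ((hZ.continuous.comp continuous_fst).prodMk continuous_snd))
    · simp [image_eq_zero_of_notMem_tsupport hp]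
  have hψ0 : ∀ p : E n × E n, 0 < k * psi Γ e z a p.1 := fun p =>
    mul_pos hk (add_pos_of_nonneg_of_pos (C.phi_nonneg z p.1) ha)
  rw [hflux _ hZ hZs, integral_congr_ae heq,
    integral_eq_zero_iff_of_nonneg (fun p => mul_nonneg β.nonneg (hψ0 p).le) hint] at hlhs
  filter_upwards [hlhs] with p hp hpb
  have h1 : β b' = 1 := β.one_of_mem_closedBall (mem_closedBall_self (by positivity))
  simp only [hpb, Pi.zero_apply] at hp
  rw [h1, one_mul] at hp
  exact (hψ0 p).ne' hp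

omit hSm hSb in
/-- The set cannot be the annulus between two roots. -/
theorem not_annulus (hn : 0 < n) (he : 0 ≤ e) (C : Comp Γ e) {k a : ℝ} (hk : 0 < k) (ha : 0 < a)
    (hae : ∀ᵐ p ∂μ, k * psi Γ e z a p.1 = fderiv ℝ (phi Γ e z) p.1 p.2)
    {r₁ r₂ : ℝ} (hr₁ : 0 < r₁) (hr : r₁ < r₂)
    (hS : ∀ᵐ x ∂vol G, x ∈ S ↔ x ∈ expL Γ z L '' {v | ‖v‖ ∈ Ioo r₁ r₂}) : False := by
  have := Core.Mini.locallyFinite_vol hG
  set b₁ := phiR e (r₁ ^ 2)
  set b₂ := phiR e (r₂ ^ 2)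
  have hb : b₁ < b₂ := (phiR_lt_iff he hr₁.le (hr₁.trans hr).le).2 hr
  set t₁ := b₁ + (b₂ - b₁) / 3 with ht₁
  set t₂ := b₁ + 2 * (b₂ - b₁) / 3 with ht₂
  set ζ : ℝ → ℝ := fun t => Real.smoothTransition ((t₂ - t) / (t₂ - t₁))
  have hζ : ContDiff ℝ 1 ζ :=
    Real.smoothTransition.contDiff.comp ((contDiff_const.sub contDiff_id).div_const _)
  have h12 : 0 < t₂ - t₁ := by rw [ht₁, ht₂]; linarith
  have hlow : ∀ t < t₁, ∀ᶠ s in 𝓝 t, ζ s = 1 := fun t ht => by
    filter_upwards [Iio_mem_nhds ht] with s hs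
    exact Real.smoothTransition.one_of_one_le
      (by rw [le_div_iff₀ h12]; linarith [mem_Iio.1 hs])
  have hhigh : ∀ t, t₂ < t → ∀ᶠ s in 𝓝 t, ζ s = 0 := fun t ht => by
    filter_upwards [Ioi_mem_nhds ht] with s hs
    exact Real.smoothTransition.zero_of_nonpos
      (div_nonpos_of_nonpos_of_nonneg (by linarith [mem_Ioi.1 hs]) h12.le)
  have hZs : HasCompactSupport (fieldPhi Γ e z ζ) :=
    compactSupport_fieldPhi hL he (M := t₂ + 1) fun t ht => (hhigh t (by linarith)).self_of_nhds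
  have hZ := contDiff_fieldPhi C z hζ
  have hint := integrable_divg hG hZ hZs
  set U₀ := expL Γ z L '' ball 0 r₁ with hU₀
  set U₁ := expL Γ z L '' {v | ‖v‖ ∈ Ioo r₁ r₂} with hU₁
  set U := expL Γ z L '' ball 0 r₂ with hU
  have hopen : ∀ s : Set (E n), IsOpen s → IsOpen (expL Γ z L '' s) := fun s hs =>
    (expH Γ z L).isOpenMap s hs
  have hU0o : IsOpen U₀ := hopen _ isOpen_ball
  have hU1o : IsOpen U₁ := hopen _ (isOpen_Ioo.preimage continuous_norm)
  -- the integral over the whole ball vanishes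
  have htot : ∫ x in U, divg G (fieldPhi Γ e z ζ) x ∂vol G = 0 := by
    rw [setIntegral_eq_integral_of_forall_compl_eq_zero, integral_divg_eq_zero hG hZ hZs]
    intro x hx
    have hge : b₂ ≤ phi Γ e z x := by
      rw [hU, image_ball_eq hL he (hr₁.trans hr).le] at hx
      exact not_lt.1 hx
    exact divg_fieldPhi_zero C (hhigh _ (by rw [ht₂]; linarith))
  -- it splits
  have hnull : vol G (expL Γ z L '' sphere 0 r₁) = 0 := by
    have : Nontrivial (E n) := Module.nontrivial_of_finrank_pos (R := ℝ)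
      (by rw [finrank_euclideanSpace_fin]; exact hn)
    exact (vol_eq_zero_iff hG).2 (addHaar_image_eq_zero_of_differentiableOn_of_addHaar_eq_zero
      volume ((contDiff_expL Γ z L).differentiable one_ne_zero).differentiableOn
      (Measure.addHaar_sphere volume 0 r₁))
  have hsplit : U =ᵐ[vol G] (U₀ ∪ U₁ : Set (E n)) := by
    filter_upwards [measure_eq_zero_iff_ae_notMem.1 hnull] with x hx
    obtain ⟨v, rfl⟩ : ∃ v, expL Γ z L v = x := ⟨_, expL_logm Γ z L x⟩
    rw [(injective_expL Γ z L).mem_set_image] at hx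
    change (_ ∈ U) = (_ ∈ U₀ ∪ U₁)
    simp only [mem_union, hU₀, hU₁, hU, (injective_expL Γ z L).mem_set_image, mem_ball_zero_iff,
      mem_sphere_zero_iff_norm, mem_ofPred_eq, mem_Ioo, eq_iff_iff] at hx ⊢
    constructor
    · exact fun h => (lt_or_gt_of_ne hx).imp id fun h' => ⟨h', h⟩
    · rintro (h | ⟨-, h⟩)
      exacts [h.trans hr, h]
  have hdis : Disjoint U₀ U₁ := by
    rw [hU₀, hU₁, disjoint_image_iff (injective_expL Γ z L), disjoint_left]
    intro v hv hv'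
    exact absurd (mem_ball_zero_iff.1 hv) (not_lt.2 hv'.1.le)
  rw [setIntegral_congr_set hsplit, setIntegral_union hdis hU1o.measurableSet hint.integrableOn
    hint.integrableOn] at htot
  -- the inner part is positive
  have hfin : vol G U₀ < ⊤ := (measure_mono (image_mono ball_subset_closedBall)).trans_lt
    ((isCompact_closedBall (0 : E n) r₁).image (contDiff_expL Γ z L).continuous).measure_lt_top
  have hpos : 0 < (vol G).real U₀ := by
    rw [measureReal_def, ENNReal.toReal_pos_iff]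
    refine ⟨pos_iff_ne_zero.2 fun h => ?_, hfin⟩
    have hvu := (vol_eq_zero_iff hG).1 h
    exact (hU0o.measure_pos volume
      ((nonempty_ball.2 hr₁).image _)).ne' hvu
  have hin : (n : ℝ) * (vol G).real U₀ ≤ ∫ x in U₀, divg G (fieldPhi Γ e z ζ) x ∂vol G := by
    rw [mul_comm, ← smul_eq_mul, ← setIntegral_const]
    refine setIntegral_mono_on (integrableOn_const hfin.ne) hint.integrableOn hU0o.measurableSet
      fun x hx => ?_
    have hlt : phi Γ e z x < t₁ := by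
      rw [hU₀, image_ball_eq hL he hr₁.le] at hx
      have hx' : phi Γ e z x < b₁ := hx
      rw [ht₁]; linarith
    rw [divg_fieldPhi_eq C (hlow _ hlt)]
    simpa using divg_gradPhi_ge hG he C z x
  -- the annulus has nonnegative flux
  have hout : 0 ≤ ∫ x in U₁, divg G (fieldPhi Γ e z ζ) x ∂vol G := by
    have hS' : (S : Set (E n)) =ᵐ[vol G] U₁ := by
      filter_upwards [hS] with x hx using propext hx
    rw [← setIntegral_congr_set hS', hflux _ hZ hZs]
    refine integral_nonneg_of_ae ?_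
    filter_upwards [hae] with p hp
    simp only [fieldPhi, map_smul, smul_apply, smul_eq_mul, Pi.zero_apply, ← C.fderiv_right, ← hp]
    exact mul_nonneg (Real.smoothTransition.nonneg _)
      (mul_nonneg hk.le (add_nonneg (C.phi_nonneg z p.1) ha.le))
  have hn' : (0 : ℝ) < n := by exact_mod_cast hn
  linarith [mul_pos hn' hpos]

/-- The measure sits on one sphere and the set is the ball inside. -/
theorem exists_level [IsFiniteMeasure μ] (hn : 2 ≤ n) (he : 0 ≤ e) (C : Comp Γ e)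
    (hS : 0 < vol G S) (hμ : μ ≠ 0) {k a : ℝ} (hk : 0 < k) (hke : e < k ^ 2) (ha : 0 < a)
    (hae : ∀ᵐ p ∂μ, G p.1 p.2 p.2 = 1 ∧ tgsq G (phi Γ e z) p = 0 ∧
      k * psi Γ e z a p.1 = fderiv ℝ (phi Γ e z) p.1 p.2) :
    ∃ r : ℝ, 0 < r ∧ (∀ᵐ p ∂μ, phi Γ e z p.1 = phiR e (r ^ 2)) ∧
      S =ᵐ[vol G] expL Γ z L '' ball 0 r ∧
      k ^ 2 * (phiR e (r ^ 2) + a) ^ 2 = 2 * phiR e (r ^ 2) + e * phiR e (r ^ 2) ^ 2 := by
  set Q : ℝ → Prop := fun x => k ^ 2 * (x + a) ^ 2 = 2 * x + e * x ^ 2 with hQ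
  have hquad : ∀ᵐ p ∂μ, Q (phi Γ e z p.1) := by
    filter_upwards [hae] with p hp
    rw [hQ]
    have h := normal_sq_of_tgsq hG C z p hp.2.1
    rw [← hp.2.2, mul_pow] at h
    exact h
  have : NeBot (ae μ) := ae_neBot.2 hμ
  obtain ⟨p₀, hp₀⟩ := hquad.exists
  set b := phi Γ e z p₀.1
  have hb : 0 < b := by
    refine (C.phi_nonneg z p₀.1).lt_of_ne fun h0 => ?_
    have h : Q 0 := by rw [h0]; exact hp₀
    simp only [hQ, zero_add, mul_zero] at h
    nlinarith [mul_pos (pow_pos hk 2) (pow_pos ha 2)]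
  set c := k ^ 2 - e
  have hc : 0 < c := sub_pos.2 hke
  set b' := k ^ 2 * a ^ 2 / (c * b) with hb'
  have hb'0 : 0 < b' := div_pos (by positivity) (by positivity)
  have hroot : ∀ x, Q x → x = b ∨ x = b' := fun x hx => by
    have h0 : (x - b) * (c * b * x - k ^ 2 * a ^ 2) = 0 := by
      simp only [hQ] at hx hp₀
      linear_combination b * hx - x * hp₀
    rcases mul_eq_zero.1 h0 with h | h
    · exact Or.inl (by linarith)
    · refine Or.inr ?_
      rw [hb', eq_div_iff (by positivity)]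
      linarith
  obtain ⟨r₁, r₂, hr₁, hr₂, hr12, hμr⟩ : ∃ r₁ r₂ : ℝ, 0 < r₁ ∧ 0 < r₂ ∧ r₁ ≤ r₂ ∧
      ∀ᵐ p ∂μ, phi Γ e z p.1 = phiR e (r₁ ^ 2) ∨ phi Γ e z p.1 = phiR e (r₂ ^ 2) := by
    obtain ⟨s, hs, hsb⟩ := exists_phiR_eq he hb
    obtain ⟨s', hs', hsb'⟩ := exists_phiR_eq he hb'0
    rcases le_total s s' with h | h
    · exact ⟨s, s', hs, hs', h, by
        filter_upwards [hquad] with p hp; rw [hsb, hsb']; exact hroot _ hp⟩
    · exact ⟨s', s, hs', hs, h, by
        filter_upwards [hquad] with p hp; rw [hsb, hsb']; exact (hroot _ hp).symm⟩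
  set Φ := expL Γ z L
  have hμnorm : ∀ᵐ p ∂μ, ∀ v, Φ v = p.1 → ‖v‖ = r₁ ∨ ‖v‖ = r₂ := by
    filter_upwards [hμr] with p hp v hv
    rw [← hv] at hp
    exact hp.imp (phi_eq_iff hL he hr₁.le v).1 (phi_eq_iff hL he hr₂.le v).1
  have hdich : ∀ A : Set (E n), IsOpen A → IsPreconnected A → (∀ v ∈ A, ‖v‖ ≠ r₁ ∧ ‖v‖ ≠ r₂) →
      (∀ᵐ x ∂vol G, x ∈ Φ '' A → x ∈ S) ∨ ∀ᵐ x ∂vol G, x ∈ Φ '' A → x ∉ S := fun A hAo hAc hA =>
    ae_mem_or_notMem hG hSm hSb hflux ((expH Γ z L).isOpenMap A hAo)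
      (hAc.image Φ (contDiff_expL Γ z L).continuous.continuousOn) (by
        filter_upwards [hμnorm] with p hp ⟨v, hv, hvp⟩
        rcases hp v hvp with h | h
        · exact (hA v hv).1 h
        · exact (hA v hv).2 h)
  have : Nontrivial (E n) := Module.nontrivial_of_finrank_pos (R := ℝ)
    (by rw [finrank_euclideanSpace_fin]; omega)
  -- outside
  set A₂ : Set (E n) := {v | ‖v‖ ∈ Ioi r₂}
  have h2 : ∀ᵐ x ∂vol G, x ∈ Φ '' A₂ → x ∉ S := by
    refine (hdich A₂ (isOpen_Ioi.preimage continuous_norm) (isPreconnected_shell hn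
      isPreconnected_Ioi fun t ht => hr₂.trans ht) fun v hv =>
        ⟨(hr12.trans_lt hv).ne', (show r₂ < ‖v‖ from hv).ne'⟩).resolve_left fun hin => ?_
    have hKc : IsCompact (closure S ∪ Φ '' closedBall 0 r₂) :=
      hSb.isCompact_closure.union ((isCompact_closedBall (0 : E n) r₂).image
        (contDiff_expL Γ z L).continuous)
    obtain ⟨y, hy⟩ := (ne_univ_iff_exists_notMem _).1 hKc.ne_univ
    have hW : 0 < volume (closure S ∪ Φ '' closedBall 0 r₂)ᶜ :=
      hKc.isClosed.isOpen_compl.measure_pos volume ⟨y, hy⟩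
    refine hW.ne' ((vol_eq_zero_iff hG).1 (measure_eq_zero_iff_ae_notMem.2 ?_))
    filter_upwards [hin] with x hx hxW
    refine hxW (Or.inl (subset_closure (hx ?_)))
    obtain ⟨v, rfl⟩ : ∃ v, Φ v = x := ⟨_, expL_logm Γ z L x⟩
    refine ⟨v, ?_, rfl⟩
    show r₂ < ‖v‖
    by_contra hle
    exact hxW (Or.inr ⟨v, mem_closedBall_zero_iff.2 (not_lt.1 hle), rfl⟩)
  -- the spheres are null
  have hsph : ∀ᵐ x ∂vol G, ∀ v, Φ v = x → ‖v‖ ≠ r₁ ∧ ‖v‖ ≠ r₂ := by
    have h : ∀ r, ∀ᵐ x ∂vol G, x ∉ Φ '' sphere 0 r := fun r =>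
      measure_eq_zero_iff_ae_notMem.1 ((vol_eq_zero_iff hG).2
        (addHaar_image_eq_zero_of_differentiableOn_of_addHaar_eq_zero volume
          ((contDiff_expL Γ z L).differentiable one_ne_zero).differentiableOn
          (Measure.addHaar_sphere volume 0 r)))
    filter_upwards [h r₁, h r₂] with x hx1 hx2 v hv
    exact ⟨fun h' => hx1 ⟨v, mem_sphere_zero_iff_norm.2 h', hv⟩,
      fun h' => hx2 ⟨v, mem_sphere_zero_iff_norm.2 h', hv⟩⟩
  -- the middle
  set A₁ : Set (E n) := {v | ‖v‖ ∈ Ioo r₁ r₂}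
  have h1 := hdich A₁ (isOpen_Ioo.preimage continuous_norm) (isPreconnected_shell hn
    isPreconnected_Ioo fun t ht => hr₁.trans ht.1) fun v hv => ⟨hv.1.ne', hv.2.ne⟩
  have h0 := hdich (ball 0 r₁) isOpen_ball (convex_ball _ _).isPreconnected fun v hv =>
    ⟨(mem_ball_zero_iff.1 hv).ne, ((mem_ball_zero_iff.1 hv).trans_le hr12).ne⟩
  have hnotnull : ¬∀ᵐ x ∂vol G, x ∉ S := fun h => hS.ne' (measure_eq_zero_iff_ae_notMem.2 h)
  -- the radius
  obtain ⟨r, hr, hrr, hSr⟩ : ∃ r, 0 < r ∧ (r = r₁ ∨ r = r₂) ∧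
      ∀ᵐ x ∂vol G, x ∈ S ↔ x ∈ Φ '' ball 0 r := by
    rcases h0 with h0 | h0 <;> rcases h1 with h1 | h1
    · refine ⟨r₂, hr₂, Or.inr rfl, ?_⟩
      filter_upwards [h0, h1, h2, hsph] with x h0 h1 h2 hx
      obtain ⟨v, rfl⟩ : ∃ v, Φ v = x := ⟨_, expL_logm Γ z L x⟩
      simp only [(injective_expL Γ z L).mem_set_image, A₁, A₂, mem_ofPred_eq, mem_ball_zero_iff,
        mem_Ioo, mem_Ioi, Φ] at h0 h1 h2 ⊢
      obtain ⟨n1, n2⟩ := hx v rfl
      refine ⟨fun hxS => (lt_or_gt_of_ne n2).resolve_right fun h => h2 h hxS, fun h => ?_⟩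
      exact (lt_or_gt_of_ne n1).elim h0 fun h' => h1 ⟨h', h⟩
    · refine ⟨r₁, hr₁, Or.inl rfl, ?_⟩
      filter_upwards [h0, h1, h2, hsph] with x h0 h1 h2 hx
      obtain ⟨v, rfl⟩ : ∃ v, Φ v = x := ⟨_, expL_logm Γ z L x⟩
      simp only [(injective_expL Γ z L).mem_set_image, A₁, A₂, mem_ofPred_eq, mem_ball_zero_iff,
        mem_Ioo, mem_Ioi, Φ] at h0 h1 h2 ⊢
      obtain ⟨n1, n2⟩ := hx v rfl
      refine ⟨fun hxS => (lt_or_gt_of_ne n1).resolve_right fun h => ?_, h0⟩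
      exact (lt_or_gt_of_ne n2).elim (fun h' => h1 ⟨h, h'⟩ hxS) fun h' => h2 h' hxS
    · exfalso
      rcases hr12.eq_or_lt with he12 | he12
      · refine hnotnull ?_
        filter_upwards [h0, h2, hsph] with x h0 h2 hx
        obtain ⟨v, rfl⟩ : ∃ v, Φ v = x := ⟨_, expL_logm Γ z L x⟩
        simp only [(injective_expL Γ z L).mem_set_image, A₂, mem_ofPred_eq, mem_ball_zero_iff,
          mem_Ioi, Φ] at h0 h2 ⊢
        exact (lt_or_gt_of_ne (hx v rfl).2).elim (fun h => h0 (he12 ▸ h)) h2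
      · refine not_annulus hL hG hflux (by omega) he C hk ha (hae.mono fun p hp => hp.2.2)
          hr₁ he12 ?_
        filter_upwards [h0, h1, h2, hsph] with x h0 h1 h2 hx
        refine ⟨fun hxS => ?_, h1⟩
        obtain ⟨v, rfl⟩ : ∃ v, Φ v = x := ⟨_, expL_logm Γ z L x⟩
        simp only [(injective_expL Γ z L).mem_set_image, A₁, A₂, mem_ofPred_eq, mem_ball_zero_iff,
          mem_Ioo, mem_Ioi, Φ] at h0 h1 h2 ⊢
        obtain ⟨n1, n2⟩ := hx v rfl
        exact ⟨(lt_or_gt_of_ne n1).resolve_left fun h => h0 h hxS,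
          (lt_or_gt_of_ne n2).resolve_right fun h => h2 h hxS⟩
    · refine absurd ?_ hnotnull
      filter_upwards [h0, h1, h2, hsph] with x h0 h1 h2 hx hxS
      obtain ⟨v, rfl⟩ : ∃ v, Φ v = x := ⟨_, expL_logm Γ z L x⟩
      simp only [(injective_expL Γ z L).mem_set_image, A₁, A₂, mem_ofPred_eq, mem_ball_zero_iff,
        mem_Ioo, mem_Ioi, Φ] at h0 h1 h2
      obtain ⟨n1, n2⟩ := hx v rfl
      rcases lt_or_gt_of_ne n1 with h | h
      · exact h0 h hxS
      rcases lt_or_gt_of_ne n2 with h' | h'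
      exacts [h1 ⟨h, h'⟩ hxS, h2 h' hxS]
  have hS' : ∀ᵐ x ∂vol G, x ∈ S ↔ phi Γ e z x < phiR e (r ^ 2) := by
    filter_upwards [hSr] with x hx
    rwa [image_ball_eq hL he hr.le] at hx
  have hother : ∀ᵐ p ∂μ, ∀ r', (r' = r₁ ∨ r' = r₂) →
      phi Γ e z p.1 = phiR e (r' ^ 2) → phi Γ e z p.1 = phiR e (r ^ 2) := by
    have hne : ∀ r', ∀ᵐ p ∂μ, phi Γ e z p.1 = phiR e (r' ^ 2) →
        phi Γ e z p.1 = phiR e (r ^ 2) := fun r' => by
      rcases eq_or_ne (phiR e (r' ^ 2)) (phiR e (r ^ 2)) with h | h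
      · exact Eventually.of_forall fun p hp => hp.trans h
      · filter_upwards [ae_phi_ne hL hG hSm hflux he C hk ha
          (hae.mono fun p hp => ⟨hp.1, hp.2.2⟩) h hS'] with p hp hp'
        exact absurd hp' hp
    filter_upwards [hne r₁, hne r₂] with p hp1 hp2 r' hr'
    rcases hr' with rfl | rfl
    exacts [hp1, hp2]
  have hμb : ∀ᵐ p ∂μ, phi Γ e z p.1 = phiR e (r ^ 2) := by
    filter_upwards [hμr, hother] with p hp ho
    exact hp.elim (ho r₁ (Or.inl rfl)) (ho r₂ (Or.inr rfl))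
  obtain ⟨p, hp1, hp2⟩ := (hquad.and hμb).exists
  refine ⟨r, hr, hμb, ?_, ?_⟩
  · filter_upwards [hSr] with x hx using propext hx
  · simp only [hQ, hp2] at hp1
    exact hp1

end

end Vale.Agent.P219.CH.Full.Rigid
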