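import Vale.Agent.P219.CH.Geo.Hadamard.Volume
import Vale.Agent.P219.CH.Full.Defs
import Mathlib.LinearAlgebra.Matrix.SchurComplement

/-!
P219, rigidity: determinants of forms, with equality only for equal forms, and the determinant of
the metric of the space form in normal coordinates.
-/

namespace Vale.Agent.P219.CH.Full.Rigid

open Matrix Finset

noncomputable section

variable {n : ℕ}

theorem dot_outer (u x : Fin n → ℝ) :
    x ⬝ᵥ ((replicateCol Unit u * replicateRow Unit u) *ᵥ x) = (u ⬝ᵥ x) ^ 2 := by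
  simp only [dotProduct, mulVec, Matrix.mul_apply, replicateCol_apply, replicateRow_apply,
    Fintype.univ_unit, Finset.sum_singleton, sq, Finset.sum_mul, Finset.mul_sum]
  exact Finset.sum_congr rfl fun i _ => Finset.sum_congr rfl fun j _ => by ring

/-- Forms which are ordered and have the same determinant are equal. -/
theorem forms_eq_of_det_eq {P Q : Matrix (Fin n) (Fin n) ℝ} (hP : P.PosDef) (hQ : Q.IsHermitian)
    (h : ∀ x : Fin n → ℝ, x ⬝ᵥ (P *ᵥ x) ≤ x ⬝ᵥ (Q *ᵥ x)) (hdet : Q.det ≤ P.det)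
    (x : Fin n → ℝ) : x ⬝ᵥ (P *ᵥ x) = x ⬝ᵥ (Q *ᵥ x) := by
  by_contra hne
  set D := Q - P with hD
  have hDt : Dᵀ = D := by
    have h1 : Qᵀ = Q := by simpa [conjTranspose_eq_transpose_of_trivial] using hQ.eq
    have h2 : Pᵀ = P := by simpa [conjTranspose_eq_transpose_of_trivial] using hP.1.eq
    rw [hD, transpose_sub, h1, h2]
  have hbsymm : ∀ y z, y ⬝ᵥ (D *ᵥ z) = z ⬝ᵥ (D *ᵥ y) := fun y z => by
    rw [dotProduct_mulVec, ← mulVec_transpose, hDt, dotProduct_comm]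
  have hb : ∀ y, 0 ≤ y ⬝ᵥ (D *ᵥ y) := fun y => by
    rw [hD, sub_mulVec, dotProduct_sub]; linarith [h y]
  set d := x ⬝ᵥ (D *ᵥ x) with hd
  have hd0 : 0 < d := (hb x).lt_of_ne' (by
    rw [hD, sub_mulVec, dotProduct_sub]; exact sub_ne_zero.2 (Ne.symm hne))
  have hcs : ∀ y, (y ⬝ᵥ (D *ᵥ x)) ^ 2 ≤ (y ⬝ᵥ (D *ᵥ y)) * d := fun y => by
    have hq : ∀ t : ℝ, 0 ≤ d * (t * t) + 2 * (y ⬝ᵥ (D *ᵥ x)) * t + y ⬝ᵥ (D *ᵥ y) := fun t => by
      have h1 := hb (y + t • x)
      simp only [mulVec_add, mulVec_smul, dotProduct_add, add_dotProduct, dotProduct_smul,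
        smul_dotProduct, smul_eq_mul, hbsymm x y] at h1
      rw [hd]; linarith
    have := discrim_le_zero hq
    rw [discrim] at this
    linarith
  set u : Fin n → ℝ := (Real.sqrt d)⁻¹ • (D *ᵥ x) with hu
  have hux : ∀ y, (u ⬝ᵥ y) ^ 2 ≤ y ⬝ᵥ (D *ᵥ y) := fun y => by
    rw [hu, smul_dotProduct, dotProduct_comm, smul_eq_mul, mul_pow, inv_pow, Real.sq_sqrt hd0.le,
      inv_mul_eq_div, div_le_iff₀ hd0]
    exact hcs y
  set P' := P + replicateCol Unit u * replicateRow Unit u with hP'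
  have hform : ∀ y, y ⬝ᵥ (P' *ᵥ y) = y ⬝ᵥ (P *ᵥ y) + (u ⬝ᵥ y) ^ 2 := fun y => by
    rw [hP', add_mulVec, dotProduct_add, dot_outer]
  have hsymm : P'.IsHermitian := by
    refine hP.1.add ?_
    ext i j
    simp [Matrix.mul_apply, mul_comm]
  have hP'pos : P'.PosDef := Matrix.posDef_iff_dotProduct_mulVec.mpr ⟨hsymm, fun y hy => by
    have h1 : 0 < star y ⬝ᵥ (P *ᵥ y) := hP.dotProduct_mulVec_pos hy
    simp only [star_trivial] at h1 ⊢
    rw [hform]; linarith [sq_nonneg (u ⬝ᵥ y)]⟩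
  have hle := det_le_det_of_forms hP'pos hQ fun y => by
    have h1 := hux y
    rw [hD, sub_mulVec, dotProduct_sub] at h1
    rw [hform]; linarith
  have hu0 : u ≠ 0 := fun h0 => by
    have h2 : (x ⬝ᵥ (D *ᵥ x)) = 0 := by
      have : D *ᵥ x = 0 := by
        rw [hu, smul_eq_zero] at h0
        exact h0.resolve_left (inv_ne_zero (Real.sqrt_pos.2 hd0).ne')
      simp [this]
    exact hd0.ne' h2
  have hinv : 0 < u ⬝ᵥ (P⁻¹ *ᵥ u) := by
    have := hP.inv.dotProduct_mulVec_pos hu0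
    simpa using this
  have hdet' : P'.det = P.det * (1 + u ⬝ᵥ (P⁻¹ *ᵥ u)) := by
    rw [hP', det_add_replicateCol_mul_replicateRow (hP.det_pos.ne'.isUnit)]
    congr 1
    rw [det_unique, Matrix.add_apply, Matrix.one_apply_eq, Matrix.mul_assoc,
      ← replicateCol_mulVec, replicateRow_mul_replicateCol_apply]
  rw [hdet'] at hle
  nlinarith [hP.det_pos, mul_pos hP.det_pos hinv]

/-- The matrix of `modelSq e v`. -/
def modelMat (e : ℝ) (v : E n) : Matrix (Fin n) (Fin n) ℝ :=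
  sd (e * ‖v‖ ^ 2) ^ 2 • (1 : Matrix (Fin n) (Fin n) ℝ) +
    replicateCol Unit (((1 - sd (e * ‖v‖ ^ 2) ^ 2) / ‖v‖ ^ 2) • (⇑v)) *
      replicateRow Unit (⇑v)

theorem dot_eq_inner (v a : E n) : (⇑v) ⬝ᵥ (⇑a) = inner ℝ v a := by
  rw [EuclideanSpace.inner_eq_star_dotProduct, star_trivial, dotProduct_comm]

theorem modelSq_eq (e : ℝ) (v a : E n) :
    modelSq e v a = (⇑a) ⬝ᵥ (modelMat e v *ᵥ ⇑a) := by
  have h1 : (replicateCol Unit (((1 - sd (e * ‖v‖ ^ 2) ^ 2) / ‖v‖ ^ 2) • (⇑v)) *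
      replicateRow Unit (⇑v)) *ᵥ (⇑a) =
      (((1 - sd (e * ‖v‖ ^ 2) ^ 2) / ‖v‖ ^ 2) * inner ℝ v a) • (⇑v) := by
    ext i
    simp only [mulVec, Matrix.mul_apply, replicateCol_apply, replicateRow_apply,
      Fintype.univ_unit, Finset.sum_singleton, Pi.smul_apply, smul_eq_mul, ← dot_eq_inner,
      dotProduct, Finset.mul_sum, Finset.sum_mul]
    exact Finset.sum_congr rfl fun j _ => by ring
  rw [modelMat, add_mulVec, smul_mulVec, one_mulVec, h1, dotProduct_add,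
    dotProduct_smul, dotProduct_smul, smul_eq_mul, smul_eq_mul, dot_eq_inner, dot_eq_inner,
    real_inner_self_eq_norm_sq, real_inner_comm v a, modelSq]
  ring

theorem isHermitian_modelMat (e : ℝ) (v : E n) : (modelMat e v).IsHermitian := by
  ext i j
  rw [conjTranspose_apply, star_trivial]
  simp only [modelMat, Matrix.add_apply, Matrix.smul_apply, Matrix.mul_apply, Matrix.one_apply,
    replicateCol_apply, replicateRow_apply, Pi.smul_apply, smul_eq_mul, Fintype.univ_unit,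
    Finset.sum_singleton, eq_comm (a := i)]
  ring

theorem det_modelMat (e : ℝ) (hn : 1 ≤ n) (v : E n) (hc : sd (e * ‖v‖ ^ 2) ≠ 0) :
    (modelMat e v).det = (sd (e * ‖v‖ ^ 2) ^ (n - 1)) ^ 2 := by
  set c := sd (e * ‖v‖ ^ 2) with hcdef
  rcases eq_or_ne v 0 with rfl | hv
  · have h1 : c = 1 := by simp [hcdef, sd]
    have h2 : sd 0 = 1 := by simp [sd]
    simp [modelMat, h1, h2]
  have hu : IsUnit (c ^ 2 • (1 : Matrix (Fin n) (Fin n) ℝ)).det := by
    rw [det_smul, det_one, mul_one]; exact (pow_ne_zero _ (pow_ne_zero _ hc)).isUnit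
  have hinv : (c ^ 2 • (1 : Matrix (Fin n) (Fin n) ℝ))⁻¹ = (c ^ 2)⁻¹ • 1 := by
    refine Matrix.inv_eq_right_inv ?_
    rw [smul_mul_assoc, one_mul, smul_smul, mul_inv_cancel₀ (pow_ne_zero _ hc), one_smul]
  rw [modelMat, ← hcdef, det_add_replicateCol_mul_replicateRow hu, hinv, det_smul, det_one,
    mul_one, det_unique]
  simp only [Matrix.add_apply, Matrix.one_apply_eq, Matrix.mul_smul, Matrix.smul_mul,
    Matrix.mul_one, Matrix.smul_apply, Matrix.replicateRow_mul_replicateCol_apply, smul_eq_mul,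
    dotProduct_smul, dot_eq_inner, real_inner_self_eq_norm_sq, Fintype.card_fin]
  have hv' : ‖v‖ ^ 2 ≠ 0 := pow_ne_zero _ (norm_ne_zero_iff.2 hv)
  obtain ⟨k, rfl⟩ : ∃ k, n = k + 1 := ⟨n - 1, by omega⟩
  rw [Nat.add_sub_cancel, pow_succ (c ^ 2) k, ← pow_mul, ← pow_mul, mul_comm 2 k]
  field_simp
  ring

end

end Vale.Agent.P219.CH.Full.Rigid
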