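import Vale.Agent.P219.CH.Full.Defs
import Mathlib.Analysis.Calculus.DSlope

/-!
P219, rigidity: elementary facts about the space form and orthonormal frames.
-/

namespace Vale.Agent.P219.CH.Full.Rigid

open Filter Topology Set
open scoped RealInnerProductSpace

noncomputable section

variable {n : ℕ}

theorem sd_zero : sd 0 = 1 := by simp [sd]

theorem sd_of_pos {x : ℝ} (hx : 0 < x) : sd x = Real.sinh (Real.sqrt x) / Real.sqrt x := if_pos hx

theorem one_le_sd {x : ℝ} (hx : 0 ≤ x) : 1 ≤ sd x := by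
  rcases hx.eq_or_lt with rfl | hx
  · rw [sd_zero]
  rw [sd_of_pos hx, le_div_iff₀ (Real.sqrt_pos.2 hx), one_mul]
  exact Real.self_le_sinh_iff.2 (Real.sqrt_nonneg x)

theorem sd_pos {x : ℝ} (hx : 0 ≤ x) : 0 < sd x := zero_lt_one.trans_le (one_le_sd hx)

theorem continuous_sd : Continuous sd := by
  have h : sd = fun x => if x ≤ 0 then 1 + x / 6 else dslope Real.sinh 0 (Real.sqrt x) := by
    funext x
    rcases lt_or_ge 0 x with h | h
    · rw [sd_of_pos h, if_neg (not_le.2 h), dslope_of_ne _ (Real.sqrt_pos.2 h).ne', slope_def_field]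
      simp
    · simp [sd, if_pos h, not_lt.2 h]
  have hc : Continuous (dslope Real.sinh 0) := continuous_iff_continuousAt.2 fun y => by
    rcases eq_or_ne y 0 with rfl | hy
    · exact continuousAt_dslope_same.2 (Real.differentiable_sinh 0)
    · exact (continuousAt_dslope_of_ne hy).2 Real.continuous_sinh.continuousAt
  rw [h]
  refine Continuous.if_le (by fun_prop) (hc.comp Real.continuous_sqrt) continuous_id
    continuous_const fun x hx => ?_
  subst hx
  simp [dslope_same, Real.deriv_sinh]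

theorem continuous_phiR (e : ℝ) : Continuous (phiR e) :=
  (continuous_id.div_const 2).mul ((continuous_sd.comp (by fun_prop)).pow 2)

theorem phiR_zero (e : ℝ) : phiR e 0 = 0 := by simp [phiR]

theorem phiR_flat (ρ : ℝ) : phiR 0 ρ = ρ / 2 := by simp [phiR, sd_zero]

theorem phiR_formula {e ρ : ℝ} (he : 0 < e) (hρ : 0 ≤ ρ) :
    phiR e ρ = (Real.cosh (Real.sqrt (e * ρ)) - 1) / e := by
  rcases hρ.eq_or_lt with rfl | hρ
  · simp [phiR]
  have h4 : 0 < e * ρ / 4 := by positivity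
  set y := Real.sqrt (e * ρ / 4) with hy
  have hy0 : 0 < y := Real.sqrt_pos.2 h4
  have hy2 : y ^ 2 = e * ρ / 4 := Real.sq_sqrt h4.le
  have hsq : Real.sqrt (e * ρ) = 2 * y := by
    rw [show e * ρ = (2 * y) ^ 2 by rw [mul_pow, hy2]; ring, Real.sqrt_sq (by linarith)]
  rw [phiR, sd_of_pos h4, ← hy, hsq, Real.cosh_two_mul, Real.cosh_sq, div_pow, hy2]
  field_simp
  ring

theorem half_le_phiR {e ρ : ℝ} (he : 0 ≤ e) (hρ : 0 ≤ ρ) : ρ / 2 ≤ phiR e ρ := by
  have h : 0 ≤ e * ρ / 4 := by positivity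
  exact le_mul_of_one_le_right (by linarith) (one_le_pow₀ (one_le_sd h))

theorem phiR_nonneg {e ρ : ℝ} (he : 0 ≤ e) (hρ : 0 ≤ ρ) : 0 ≤ phiR e ρ := by
  linarith [half_le_phiR he hρ]

theorem strictMonoOn_phiR {e : ℝ} (he : 0 ≤ e) : StrictMonoOn (phiR e) (Ici 0) := by
  intro a ha b hb hab
  rcases he.eq_or_lt with rfl | he
  · rw [phiR_flat, phiR_flat]; linarith
  rw [phiR_formula he ha, phiR_formula he hb]
  refine div_lt_div_of_pos_right (sub_lt_sub_right ?_ 1) he
  exact Real.cosh_strictMonoOn (Real.sqrt_nonneg _) (Real.sqrt_nonneg _)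
    (Real.sqrt_lt_sqrt (mul_nonneg he.le ha) (mul_lt_mul_of_pos_left hab he))

theorem phiR_lt_iff {e a b : ℝ} (he : 0 ≤ e) (ha : 0 ≤ a) (hb : 0 ≤ b) :
    phiR e (a ^ 2) < phiR e (b ^ 2) ↔ a < b := by
  rw [(strictMonoOn_phiR he).lt_iff_lt (sq_nonneg a) (sq_nonneg b)]
  exact pow_lt_pow_iff_left₀ ha hb two_ne_zero

theorem exists_phiR_eq {e b : ℝ} (he : 0 ≤ e) (hb : 0 < b) :
    ∃ r, 0 < r ∧ phiR e (r ^ 2) = b := by
  have h := intermediate_value_Icc (f := phiR e) (show (0 : ℝ) ≤ 2 * b by linarith)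
    (continuous_phiR e).continuousOn
  obtain ⟨ρ, hρ, hρb⟩ := h (show b ∈ Icc _ _ from ⟨by rw [phiR_zero]; exact hb.le,
    by linarith [half_le_phiR he (show (0 : ℝ) ≤ 2 * b by linarith)]⟩)
  have hρ0 : 0 < ρ := hρ.1.lt_of_ne fun h0 => hb.ne (by rw [← hρb, ← h0, phiR_zero])
  exact ⟨Real.sqrt ρ, Real.sqrt_pos.2 hρ0, by rw [Real.sq_sqrt hρ0.le, hρb]⟩

theorem sn_pos {e r : ℝ} (he : 0 ≤ e) (hr : 0 < r) : 0 < sn e r :=
  mul_pos hr (sd_pos (mul_nonneg he (sq_nonneg r)))

theorem sn_formula {e r : ℝ} (he : 0 < e) (hr : 0 ≤ r) :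
    sn e r = Real.sinh (Real.sqrt e * r) / Real.sqrt e := by
  rcases hr.eq_or_lt with rfl | hr
  · simp [sn]
  have h : Real.sqrt (e * r ^ 2) = Real.sqrt e * r := by
    rw [Real.sqrt_mul he.le, Real.sqrt_sq hr.le]
  rw [sn, sd_of_pos (by positivity), h]
  field_simp

theorem cs_sq {e r : ℝ} (he : 0 ≤ e) (hr : 0 ≤ r) : cs e r ^ 2 - e * sn e r ^ 2 = 1 := by
  rcases he.eq_or_lt with rfl | he
  · simp [cs]
  rw [cs, sn_formula he hr, div_pow, Real.sq_sqrt he.le, Real.cosh_sq]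
  field_simp
  ring

theorem phiR_sn {e r : ℝ} (he : 0 ≤ e) (hr : 0 ≤ r) :
    2 * phiR e (r ^ 2) + e * phiR e (r ^ 2) ^ 2 = sn e r ^ 2 := by
  rcases he.eq_or_lt with rfl | he
  · simp [phiR_flat, sn, sd_zero]
    ring
  have h : Real.sqrt (e * r ^ 2) = Real.sqrt e * r := by
    rw [Real.sqrt_mul he.le, Real.sqrt_sq hr]
  have h2 := cs_sq he.le hr
  rw [phiR_formula he (sq_nonneg r), h, ← cs]
  field_simp
  linarith

/-- The balance of the two equations. -/
theorem radius_eq {e a b κ s : ℝ} (he : 0 ≤ e) (ha : 0 < a) (hea : e * a < 1) (hb : 0 < b)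
    (hκ : κ * s ^ 2 = 1 + e * s ^ 2)
    (hquad : κ * (b + a) ^ 2 = 2 * b + e * b ^ 2)
    (hbal : kk e a / (b + a) = (1 - e * a) / kk e a) : 2 * b + e * b ^ 2 = s ^ 2 := by
  have hk0 : 0 < a * (2 - e * a) := mul_pos ha (by linarith)
  have hk : kk e a ^ 2 = a * (2 - e * a) := Real.sq_sqrt hk0.le
  have hkp : 0 < kk e a := Real.sqrt_pos.2 hk0
  rw [div_eq_div_iff (by positivity) hkp.ne', ← sq, hk] at hbal
  have hab : a * (1 + e * b) = b := by linarith
  have heb : 0 < 1 + e * b := by positivity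
  have hF : 0 < 2 * b + e * b ^ 2 := by positivity
  have h1 : (b + a) * (1 + e * b) = 2 * b + e * b ^ 2 := by linear_combination hab
  have h2 : κ * (2 * b + e * b ^ 2) ^ 2 = (2 * b + e * b ^ 2) * (1 + e * b) ^ 2 := by
    rw [← h1]
    linear_combination (1 + e * b) ^ 2 * hquad - h1 * (1 + e * b) ^ 2
  have h3 : κ * (2 * b + e * b ^ 2) = (1 + e * b) ^ 2 :=
    mul_left_cancel₀ hF.ne' (by linear_combination h2)
  have h4 : κ * (2 * b + e * b ^ 2) * s ^ 2 = (1 + e * b) ^ 2 * s ^ 2 := by rw [h3]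
  linear_combination h4 - (2 * b + e * b ^ 2) * hκ

/-- A symmetric positive form has an orthonormal frame. -/
theorem exists_frame {G : Coeff n} (hG : IsMetric G) (z : E n) :
    ∃ L : E n ≃L[ℝ] E n, ∀ u v, G z (L u) (L v) = ⟪u, v⟫ := by
  set S : E n →ₗ[ℝ] E n :=
    ((InnerProductSpace.toDual ℝ (E n)).symm.toContinuousLinearEquiv.toContinuousLinearMap.comp
      (G z)).toLinearMap
  have hS : ∀ u v, ⟪S u, v⟫ = G z u v := fun u v => InnerProductSpace.toDual_symm_apply
  have hsym : S.IsSymmetric := fun u v => by rw [hS, real_inner_comm, hS, hG.symm]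
  set b := hsym.eigenvectorBasis finrank_euclideanSpace_fin
  set ev := hsym.eigenvalues finrank_euclideanSpace_fin
  have hb : ∀ i, S (b i) = ev i • b i := fun i => hsym.apply_eigenvectorBasis _ i
  have hGb : ∀ i j, G z (b i) (b j) = if i = j then ev i else 0 := fun i j => by
    rw [← hS, hb, real_inner_smul_left, orthonormal_iff_ite.1 b.orthonormal i j]
    split <;> simp
  have hev : ∀ i, 0 < ev i := fun i => by
    have h := hG.pos z (b i) (b.orthonormal.ne_zero i)
    rwa [hGb, if_pos rfl] at h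
  set T : E n →ₗ[ℝ] E n := ∑ i,
    ((EuclideanSpace.proj (𝕜 := ℝ) i).toLinearMap.smulRight ((Real.sqrt (ev i))⁻¹ • b i))
  have hT : ∀ u, T u = ∑ i, (u i * (Real.sqrt (ev i))⁻¹) • b i := fun u => by
    simp [T, smul_smul]
  have key : ∀ u v, G z (T u) (T v) = ⟪u, v⟫ := fun u v => by
    rw [hT, hT]
    simp only [map_sum, map_smul, sum_apply, smul_apply, smul_eq_mul, hGb, mul_ite, mul_zero,
      Finset.sum_ite_eq', Finset.mem_univ, if_true, PiLp.inner_apply]
    refine Finset.sum_congr rfl fun i _ => ?_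
    simp only [RCLike.inner_apply, conj_trivial]
    have h := Real.sq_sqrt (hev i).le
    have h0 := (Real.sqrt_pos.2 (hev i)).ne'
    field_simp
    rw [h]
    ring
  have hinj : Function.Injective T := (injective_iff_map_eq_zero T).2 fun u hu => by
    simpa [hu] using (key u u).symm
  exact ⟨(LinearEquiv.ofInjectiveEndo T hinj).toContinuousLinearEquiv, fun u v => key u v⟩

end

end Vale.Agent.P219.CH.Full.Rigid
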