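import Vale.Agent.P219.CH.Minkowski
import Vale.Agent.P219.CH.Geo.Hadamard
import Vale.Agent.P219.CH.Full.Limit.Pre
import Vale.Agent.P219.CH.Full.Tools
import Vale.Agent.P219.CH.Full.Rigid.Model
import Vale.Agent.P219.CH.Full.Rigid.Const

/-!
P219, rigidity: a set with the least boundary gives a datum of equality in the area bound.
-/

namespace Vale.Agent.P219.CH.Full.Rigid

open MeasureTheory Filter Topology Set Metric
open scoped ContDiff

noncomputable section

variable {n : ℕ} {G : Coeff n} {e : ℝ}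

theorem isCH_of_isCHe (h : IsCHe G e) : IsCH G := by
  refine ⟨h.metric, h.complete, fun x u v => (h.sec x u v).trans ?_⟩
  have hc := pow_le_pow_left₀ (abs_nonneg _) (h.metric.cauchy x u v) 2
  rw [sq_abs, mul_pow, h.metric.gnorm_sq, h.metric.gnorm_sq] at hc
  nlinarith [mul_nonneg h.nonneg (sub_nonneg.2 hc)]

theorem strictMonoOn_profE (hprof : ProfStmt) (hn : 2 ≤ n) (he : 0 ≤ e) :
    StrictMonoOn (profE n e) (Ioi 0) := by
  obtain ⟨hc, -, -, -, hd⟩ := hprof n e hn he
  refine strictMonoOn_of_deriv_pos (convex_Ioi 0) hc.continuousOn fun V hV => ?_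
  obtain ⟨r, hr, -, -, h⟩ := hd V (interior_subset hV)
  have hm : 0 < md n := by
    have : (2 : ℝ) ≤ n := by exact_mod_cast hn
    simp only [md]; linarith
  rw [h.deriv]
  exact div_pos (mul_pos hm (Real.cosh_pos _)) (sn_pos he hr)

/-- Almost minimisers which are one on the set. -/
theorem exists_seq (hprof : ProfStmt) (hglob : GlobalStmt) (hn : 4 ≤ n) (hCH : IsCHe G e)
    {S : Set (E n)} (hSm : MeasurableSet S) (hSb : Bornology.IsBounded S) (hS : 0 < vol G S)
    (hC : ∀ c, profE n e (vol G S).toReal < c → ∃ᶠ ε in 𝓝[>] (0 : ℝ),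
      vol G (nbhd G S ε) ≤ ENNReal.ofReal ((vol G S).toReal + ε * c)) :
    ∃ (K : Set (E n)) (η : E n → ℝ) (f : ℕ → E n → ℝ) (B : ℕ → ℝ),
      IsCompact K ∧ S ⊆ K ∧ Cls η ∧ (∀ x ∈ K, η x = 1) ∧ Nonempty (Almost G e η f) ∧
      (∀ k, tsupport (f k) ⊆ K) ∧ (∀ k, ∀ x ∈ S, f k x = 1) ∧
      (∀ k, tvar G (f k) ≤ B k) ∧ Tendsto B atTop (𝓝 (profE n e (vol G S).toReal)) ∧
      Tendsto (fun k => ∫ x, f k x ∂vol G) atTop (𝓝 (vol G S).toReal) := by
  have hG := hCH.metric
  have := Minkowski.finite_compacts hG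
  obtain ⟨R₀, hR₀⟩ := hSb.subset_closedBall (0 : E n)
  set R := max R₀ 0
  have hR : S ⊆ closedBall 0 R := hR₀.trans (closedBall_subset_closedBall (le_max_left _ _))
  have hR0 : 0 ≤ R := le_max_right _ _
  have hSne : S.Nonempty := nonempty_of_measure_ne_zero hS.ne'
  have hSfin : vol G S ≠ ⊤ :=
    measure_ne_top_of_subset hR (isCompact_closedBall (0 : E n) R).measure_ne_top
  obtain ⟨hPc, hPmono, -, -, hPr⟩ := hprof n e (by omega) hCH.nonneg
  set V := (vol G S).toReal with hV
  have hV0 : 0 < V := ENNReal.toReal_pos hS.ne' hSfin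
  set P := profE n e V with hP
  have hP0 : 0 < P := by
    obtain ⟨r, hr, -, hA, -⟩ := hPr V hV0
    rw [hP, hA, areaM]
    have hn0 : (0 : ℝ) < n := by exact_mod_cast (show 0 < n by omega)
    have hs := sn_pos hCH.nonneg hr
    exact mul_pos (mul_pos hn0 (Core.Mini.omega_pos n)) (pow_pos hs _)
  let b : ContDiffBump (0 : E n) := ⟨R + 2, R + 3, by linarith, by linarith⟩
  set η : E n → ℝ := fun x => b x
  have hη : Cls η := ⟨b.contDiff, b.hasCompactSupport, fun x => ⟨b.nonneg, b.le_one⟩⟩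
  have hη1 : ∀ x ∈ closedBall (0 : E n) (R + 2), η x = 1 := fun x hx =>
    b.one_of_mem_closedBall hx
  obtain ⟨m, hm0, hm⟩ := Minkowski.exists_lower hG (isCompact_closedBall (0 : E n) (R + 1))
  have hLex : ∀ k : ℕ, ∃ L : ℝ, 1 ≤ L ∧ ∀ f, Cls f →
      profE n e (wmass G η f) ≤ tvar G f + L * midv G f + 1 / ((k : ℝ) + 1) := fun k => by
    obtain ⟨L, -, hL⟩ := hglob n G e hn hCH η hη (1 / ((k : ℝ) + 1)) (by positivity)
    refine ⟨max L 1, le_max_right _ _, fun f hf => (hL f hf).trans ?_⟩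
    have : 0 ≤ midv G f := integral_nonneg fun x =>
      mul_nonneg (hf.mem x).1 (by linarith [(hf.mem x).2])
    gcongr
    exact le_max_left _ _
  choose L hL1 hL using hLex
  set c' : ℕ → ℝ := fun k => P + 2 / ((k : ℝ) + 1)
  set θ : ℕ → ℝ := fun k => 1 / ((k : ℝ) + 2)
  have hθ : ∀ k, 0 < θ k ∧ θ k < 1 := fun k =>
    ⟨by simp only [θ]; positivity, by
      simp only [θ]; rw [div_lt_one (by positivity)]; linarith [k.cast_nonneg (α := ℝ)]⟩
  have hc' : ∀ k, 0 < c' k := fun k => by simp only [c']; positivity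
  have hstep : ∀ k : ℕ, ∃ g : E n → ℝ, Cls g ∧ tsupport g ⊆ closedBall 0 (R + 2) ∧
      (∀ x ∈ S, g x = 1) ∧ V ≤ ∫ x, g x ∂vol G ∧
      tvar G g ≤ (1 + θ k) * c' k / (1 - θ k) ∧ L k * midv G g ≤ 1 / ((k : ℝ) + 1) := by
    intro k
    have hk : (0 : ℝ) < (k : ℝ) + 1 := by positivity
    have hc : P < P + 1 / ((k : ℝ) + 1) := lt_add_of_pos_right _ (by positivity)
    have hε₀ : 0 < min m (1 / ((k : ℝ) + 1) / (L k * c' k)) :=
      lt_min hm0 (div_pos (by positivity) (mul_pos (by linarith [hL1 k]) (hc' k)))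
    obtain ⟨ε, hεv, hε⟩ := ((hC _ hc).and_eventually (Ioo_mem_nhdsGT hε₀)).exists
    obtain ⟨hεm, hεL⟩ := lt_min_iff.1 hε.2
    have hsub : S ⊆ nbhd G S ε := fun x hx =>
      (Minkowski.mem_nbhd_iff hSne).2 ((Minkowski.cdist_of_mem hx).trans_lt hε.1)
    have hNtop : vol G (nbhd G S ε) ≠ ⊤ := ne_top_of_le_ne_top ENNReal.ofReal_ne_top hεv
    have hN : (vol G (nbhd G S ε)).toReal ≤ V + ε * (P + 1 / ((k : ℝ) + 1)) :=
      ENNReal.toReal_le_of_le_ofReal (add_nonneg hV0.le (mul_nonneg hε.1.le (by positivity))) hεv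
    have hlt : ε * (P + 1 / ((k : ℝ) + 1)) < ε * c' k := by
      refine mul_lt_mul_of_pos_left ?_ hε.1
      simp only [c']
      gcongr
      norm_num
    have hvol : vol G (nbhd G S ε \ S) < ENNReal.ofReal (ε * c' k) := by
      rw [measure_sdiff hsub hSm.nullMeasurableSet hSfin,
        ENNReal.lt_ofReal_iff_toReal_lt (ENNReal.sub_ne_top hNtop),
        ENNReal.toReal_sub_of_le (measure_mono hsub) hNtop]
      linarith
    obtain ⟨g, hgs, hsupp, hg01, hmass, htv, hmid, hone⟩ :=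
      Minkowski.exists_test_one hG hSne hR hm hSm hε.1 hεm (hθ k).1 (hθ k).2 hvol
    refine ⟨g, ⟨hgs.of_le (by exact_mod_cast le_top), (isCompact_closedBall (0 : E n) (R + 2))
      |>.of_isClosed_subset (isClosed_tsupport _) hsupp, hg01⟩, hsupp, hone, hmass, htv, ?_⟩
    refine (mul_le_mul_of_nonneg_left hmid (by linarith [hL1 k])).trans ?_
    rw [lt_div_iff₀ (mul_pos (by linarith [hL1 k]) (hc' k))] at hεL
    linarith
  choose f hf hfsupp hf1 hfV hfT hfM using hstep
  set B : ℕ → ℝ := fun k => (1 + θ k) * c' k / (1 - θ k)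
  have h1 : Tendsto (fun k : ℕ => 1 / ((k : ℝ) + 1)) atTop (𝓝 0) :=
    tendsto_one_div_add_atTop_nhds_zero_nat
  have hθlim : Tendsto θ atTop (𝓝 0) :=
    squeeze_zero (fun k => (hθ k).1.le)
      (fun k => one_div_le_one_div_of_le (by positivity) (by linarith)) h1
  have hB : Tendsto B atTop (𝓝 P) := by
    have hc : Tendsto c' atTop (𝓝 P) := by
      simpa [c', div_eq_mul_inv] using (h1.const_mul 2).const_add P
    simpa [B, Pi.div_def] using ((hθlim.const_add 1).mul hc).div (hθlim.const_sub 1) (by norm_num)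
  have hmid0 : ∀ k, 0 ≤ midv G (f k) := fun k =>
    integral_nonneg fun x => mul_nonneg ((hf k).mem x).1 (by linarith [((hf k).mem x).2])
  have hmass : ∀ k, wmass G η (f k) = ∫ x, f k x ∂vol G := fun k =>
    integral_congr_ae (Eventually.of_forall fun x => by
      by_cases hx : x ∈ tsupport (f k)
      · simp [hη1 x (hfsupp k hx)]
      · simp [image_eq_zero_of_notMem_tsupport hx])
  have hup : ∀ k, profE n e (∫ x, f k x ∂vol G) ≤ B k + 2 / ((k : ℝ) + 1) := fun k => by
    have h := hL k (f k) (hf k)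
    rw [hmass] at h
    have := hfT k
    rw [show (2 : ℝ) / ((k : ℝ) + 1) = 1 / ((k : ℝ) + 1) + 1 / ((k : ℝ) + 1) by ring]
    linarith [hfM k]
  have hBk : Tendsto (fun k : ℕ => B k + 2 / ((k : ℝ) + 1)) atTop (𝓝 P) := by
    simpa [div_eq_mul_inv] using hB.add (h1.const_mul 2)
  refine ⟨closedBall 0 (R + 2), η, f, B, isCompact_closedBall _ _,
    hR.trans (closedBall_subset_closedBall (by linarith)), hη, hη1, ?_, hfsupp, hf1, hfT, hB, ?_⟩
  · refine ⟨⟨L, fun k => B k - P + 2 / ((k : ℝ) + 1), hL1, ?_, hf, ?_, ?_, fun k g hg => ?_⟩⟩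
    · simpa [div_eq_mul_inv] using (hB.sub_const P).add (h1.const_mul 2)
    · exact squeeze_zero (fun k => mul_nonneg (by linarith [hL1 k]) (hmid0 k)) hfM h1
    · obtain ⟨C, hC⟩ := hB.bddAbove_range
      exact ⟨C, fun k => (hfT k).trans (hC (mem_range_self k))⟩
    · have hg' := hL k g hg
      have hm1 : P ≤ profE n e (wmass G η (f k)) := by rw [hmass]; exact hPmono (hfV k)
      rw [show (2 : ℝ) / ((k : ℝ) + 1) = 1 / ((k : ℝ) + 1) + 1 / ((k : ℝ) + 1) by ring]
      linarith [hfT k, hfM k]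
  · refine tendsto_order.2 ⟨fun a ha => Eventually.of_forall fun k => ha.trans_le (hfV k),
      fun a ha => ?_⟩
    have hlt : P < profE n e a :=
      strictMonoOn_profE hprof (by omega) hCH.nonneg hV0 (hV0.trans ha) ha
    filter_upwards [(tendsto_order.1 hBk).2 _ hlt] with k hk
    exact hPmono.reflect_lt ((hup k).trans_lt hk)

/-- Equality in the area bound, read off from the set. -/
theorem exists_equality (hcomp : ∀ Γ : Geo G, Comp Γ e) (hprof : ProfStmt) (hglob : GlobalStmt)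
    (hpre : PreStmt) (hflux : FluxStmt) (hfirst : FirstStmt) (hgrow : GrowthStmt)
    (hvd : VolDensStmt) (hdens : DensStmt) (hne : NeStmt) (hcore : RigidCoreStmt)
    (hn : 4 ≤ n) (hCH : IsCHe G e)
    {S : Set (E n)} (hSm : MeasurableSet S) (hSb : Bornology.IsBounded S) (hS : 0 < vol G S)
    (hC : ∀ c, profE n e (vol G S).toReal < c → ∃ᶠ ε in 𝓝[>] (0 : ℝ),
      vol G (nbhd G S ε) ≤ ENNReal.ofReal ((vol G S).toReal + ε * c)) (Γ : Geo G) :
    ∃ (r₀ : ℝ) (μ : Measure (E n × E n)) (z : E n) (a : ℝ), IsFiniteMeasure μ ∧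
      0 < r₀ ∧ volM n e r₀ = (vol G S).toReal ∧ 0 < a ∧ e * a < 1 ∧ μ ≠ 0 ∧
      ∫ p, wgt Γ e z a p.1 ∂μ = μ.real univ * ((1 - e * a) / kk e a) ∧
      (∀ᵐ p ∂μ, G p.1 p.2 p.2 = 1 ∧ tgsq G (phi Γ e z) p = 0 ∧
        cs e r₀ / sn e r₀ * psi Γ e z a p.1 = fderiv ℝ (phi Γ e z) p.1 p.2) ∧
      ∀ Z : E n → E n, ContDiff ℝ 1 Z → HasCompactSupport Z →
        ∫ x in S, divg G Z x ∂vol G = ∫ p, G p.1 (Z p.1) p.2 ∂μ := by
  have hG := hCH.metric
  have := Minkowski.finite_compacts hG
  have := Core.Mini.locallyFinite_vol hG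
  obtain ⟨K, η, f, B, hK, hSK, hη, hη1, ⟨hA⟩, hfK, hf1, hfT, hB, hfV⟩ :=
    exists_seq hprof hglob hn hCH hSm hSb hS hC
  set V := (vol G S).toReal with hV
  have hSfin : vol G S ≠ ⊤ := measure_ne_top_of_subset hSK hK.measure_ne_top
  have hV0 : 0 < V := ENNReal.toReal_pos hS.ne' hSfin
  obtain ⟨r₀, hr₀, hvolr, harea, hderiv⟩ := (hprof n e (by omega) hCH.nonneg).2.2.2.2 V hV0
  obtain ⟨P⟩ := hpre n G hG f hA.cls hA.bounded
  have hfint : ∀ k, Integrable (f k) (vol G) := fun k =>
    Core.Mini.integrable_of_supp hG (hA.cls k).c1.continuous (hA.cls k).supp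
  have hind : Integrable (S.indicator fun _ => (1 : ℝ)) (vol G) :=
    (integrable_indicator_iff hSm).2 (integrableOn_const hSfin)
  have hg : ∀ᵐ x ∂vol G, P.g x = S.indicator (fun _ => (1 : ℝ)) x := by
    refine ae_eq_of_integral_contDiff_smul_eq
      ((locallyIntegrable_const (1 : ℝ)).mono P.g_meas.aestronglyMeasurable
        (Eventually.of_forall fun x => by
          rw [Real.norm_eq_abs, abs_of_nonneg (P.g_mem x).1, norm_one]; exact (P.g_mem x).2))
      hind.locallyIntegrable fun ψ hψ hψs => ?_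
    simp only [smul_eq_mul]
    refine tendsto_nhds_unique (P.g_lim ψ hψ.continuous hψs) (Tendsto.mono_left ?_ P.le)
    obtain ⟨C, hC⟩ := hψ.continuous.bounded_above_of_compact_support hψs
    have hψf : ∀ k, Integrable (fun x => ψ x * f k x) (vol G) := fun k =>
      (hfint k).bdd_mul hψ.continuous.aestronglyMeasurable (Eventually.of_forall hC)
    have hψi : Integrable (fun x => ψ x * S.indicator (fun _ => (1 : ℝ)) x) (vol G) :=
      hind.bdd_mul hψ.continuous.aestronglyMeasurable (Eventually.of_forall hC)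
    rw [tendsto_iff_norm_sub_tendsto_zero]
    refine squeeze_zero (fun k => norm_nonneg _) (fun k => ?_)
      (show Tendsto (fun k => C * ((∫ x, f k x ∂vol G) - V)) atTop (𝓝 0) by
        simpa using (hfV.sub_const V).const_mul C)
    rw [← integral_sub (hψf k) hψi]
    refine (norm_integral_le_of_norm_le ((hfint k).sub hind |>.const_mul C)
      (Eventually.of_forall fun x => ?_)).trans (le_of_eq ?_)
    · have hnn : 0 ≤ f k x - S.indicator (fun _ => (1 : ℝ)) x := by
        by_cases hx : x ∈ S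
        · simp [hx, hf1 k x hx]
        · simpa [hx] using ((hA.cls k).mem x).1
      rw [← mul_sub, norm_mul, Real.norm_of_nonneg hnn, Pi.sub_apply]
      exact mul_le_mul_of_nonneg_right (hC x) hnn
    · simp only [Pi.sub_apply]
      rw [integral_const_mul, integral_sub (hfint k) hind, integral_indicator_const _ hSm,
        measureReal_def, smul_eq_mul, mul_one]
  have hmassg : wmass G η P.g = V := by
    calc wmass G η P.g = ∫ x, S.indicator (fun _ => (1 : ℝ)) x ∂vol G :=
          integral_congr_ae (by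
            filter_upwards [hg] with x hx
            rw [hx]
            by_cases h : x ∈ S
            · simp [h, hη1 x (hSK h)]
            · simp [h])
      _ = V := by rw [integral_indicator_const _ hSm, measureReal_def, smul_eq_mul, mul_one]
  have hsupp : ∀ᵐ p ∂P.μ, p.1 ∈ K := by
    have hU : IsOpen {p : E n × E n | p.1 ∉ K} := hK.isClosed.isOpen_compl.preimage continuous_fst
    rw [ae_iff, hU.measure_eq_iSup_isCompact]
    simp only [ENNReal.iSup_eq_zero]
    intro C hCU hC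
    obtain ⟨χ, hχ1, hχs, hχU, hχ01⟩ :=
      exists_continuousMap_one_of_isCompact_subset_isOpen hC hU hCU
    have h0 : ∫ p, χ p ∂P.μ = 0 := by
      refine tendsto_nhds_unique (P.mu_lim χ χ.continuous hχs) (tendsto_const_nhds.congr fun k => ?_)
      refine (integral_eq_zero_of_ae ?_).symm
      filter_upwards [Core.Mini.surf_ae_mem hG (hA.cls k).c1] with x hx
      exact image_eq_zero_of_notMem_tsupport fun h => hχU h (hfK k hx)
    have hle : P.μ.real C ≤ 0 := by
      rw [← h0, ← mul_one (P.μ.real C), ← smul_eq_mul, ← integral_indicator_const _ hC.measurableSet]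
      refine integral_mono ((integrable_const _).indicator hC.measurableSet)
        (χ.continuous.integrable_of_hasCompactSupport hχs) fun p => ?_
      by_cases hp : p ∈ C
      · simp [hp, hχ1 hp]
      · simpa [hp] using (hχ01 p).1
    exact (measureReal_eq_zero_iff).1 (le_antisymm hle measureReal_nonneg)
  set h₁ := md n * cs e r₀ / sn e r₀ with hh₁
  have hm := three_le_md hn
  have hsn := sn_pos hCH.nonneg hr₀
  have hh₁0 : 0 < h₁ := div_pos (mul_pos (by linarith) (Real.cosh_pos _)) hsn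
  let D₀ : Varifold G h₁ :=
    { μ := P.μ, finite := P.finite, unit := P.unit, h := fun x => h₁ * η x
      h_cont := continuous_const.mul hη.c1.continuous
      h_le := fun x => by
        rw [abs_mul, abs_of_pos hh₁0, abs_of_nonneg (hη.mem x).1]
        exact mul_le_of_le_one_right hh₁0.le (hη.mem x).2
      first := hfirst n G e (by omega) hCH.nonneg hG η hη f hA P h₁ (hmassg ▸ hV0)
        (hmassg ▸ hderiv) }
  have hg01 : ∀ᵐ x : E n, P.g x = 0 ∨ P.g x = 1 := by
    filter_upwards [(ae_vol_iff hG).1 hg] with x hx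
    by_cases h : x ∈ S <;> simp [hx, h]
  let D : Datum Γ h₁ :=
    { toVarifold := D₀
      ne_zero := hne n G e Γ (by omega) hCH (hcomp Γ) f hA.cls P η hη (hmassg ▸ hV0)
      dens := hdens n G Γ (by omega) hG f hA.cls P hg01
        (hgrow n G e Γ h₁ (by omega) hCH (hcomp Γ) D₀)
        (hvd n G e (by omega) hCH.nonneg hG η hη f hA P h₁ (hmassg ▸ hV0) (hmassg ▸ hderiv)) }
  have hlam : lam n e h₁ = md n * (md n - 1) / sn e r₀ ^ 2 := by
    have h := cs_sq hCH.nonneg hr₀.le
    have h' : md n ≠ 0 := by linarith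
    rw [lam, hh₁]
    field_simp
    linear_combination (md n - 1) * h
  have hlam0 : 0 < lam n e h₁ := by
    rw [hlam]; exact div_pos (mul_pos (by linarith) (by linarith)) (pow_pos hsn 2)
  have hle : lam n e h₁ * P.μ.real univ ^ (2 / md n) ≤ YS n := by
    have hA' : P.μ.real univ ≤ areaM n e r₀ := by
      rw [← harea]
      exact P.mass_le.trans (le_of_tendsto_of_tendsto' P.tvar_lim (hB.mono_left P.le) hfT)
    have hsph : 0 ≤ sphA n := mul_nonneg (Nat.cast_nonneg n) (Core.Mini.omega_pos n).le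
    refine (mul_le_mul_of_nonneg_left
      (Real.rpow_le_rpow measureReal_nonneg hA' (by positivity)) hlam0.le).trans (le_of_eq ?_)
    rw [hlam, areaM, ← sphA, Real.mul_rpow hsph (pow_nonneg hsn.le _),
      ← Real.rpow_natCast (sn e r₀) (n - 1), ← Real.rpow_mul hsn.le, ← md_eq_cast (by omega),
      mul_div_cancel₀ _ (by linarith : md n ≠ 0), Real.rpow_two, YS]
    field_simp
  obtain ⟨z, a, ha, hea, hbal, hae⟩ := hcore n G e Γ h₁ hn hCH (hcomp Γ) D hlam0 K hK hsupp hle
  refine ⟨r₀, P.μ, z, a, P.finite, hr₀, hvolr, ha, hea, D.ne_zero, hbal, ?_, fun Z hZ hZs => ?_⟩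
  · filter_upwards [P.unit, hsupp, hae] with p h1 h2 h3
    refine ⟨h1, h3.2.1, ?_⟩
    have h := h3.2.2
    change h₁ * η p.1 * _ = _ at h
    rw [hη1 _ h2, mul_one, hh₁] at h
    refine mul_left_cancel₀ (show md n ≠ 0 by linarith) (Eq.trans ?_ h)
    ring
  · rw [← hflux n G hG f hA.cls P Z hZ hZs, ← integral_indicator hSm]
    refine integral_congr_ae ?_
    filter_upwards [hg] with x hx
    by_cases h : x ∈ S <;> simp [hx, h]

end

end Vale.Agent.P219.CH.Full.Rigid
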